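import Crest.Agent.S0025.Basic

set_option autoImplicit false

namespace Crest.Agent.S0025

open Finset

theorem pools_card (n : ℕ) : ((Finset.Icc 1 n).filter Nat.Prime).card = Nat.primeCounting n := by
  unfold Nat.primeCounting Nat.primeCounting'
  rw [Nat.count_eq_card_filter_range]
  congr 1
  ext p
  simp only [mem_filter, mem_Icc, mem_range]
  constructor
  · rintro ⟨⟨_, h⟩, hp⟩
    exact ⟨by omega, hp⟩
  · rintro ⟨h, hp⟩
    exact ⟨⟨hp.one_lt.le, by omega⟩, hp⟩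

theorem pools_card_add (m n : ℕ) (h : m ≤ n) :
    ((Finset.Icc 1 n).filter Nat.Prime).card ≤ m + ((Finset.Ioc m n).filter Nat.Prime).card := by
  have h1 : (Finset.Icc 1 n).filter Nat.Prime ⊆ Finset.Icc 1 m ∪ (Finset.Ioc m n).filter Nat.Prime := by
    intro p hp
    simp only [mem_filter, mem_Icc, mem_union, mem_Ioc] at hp ⊢
    by_cases hpm : p ≤ m
    · exact Or.inl ⟨hp.1.1, hpm⟩
    · exact Or.inr ⟨⟨by omega, hp.1.2⟩, hp.2⟩
  refine (card_le_card h1).trans ((card_union_le _ _).trans ?_)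
  simp

/-- `M ≤ 2 log M · π(M)` for large `M`. -/
theorem pools_pi : ∃ M₀ : ℕ, ∀ M ≥ M₀, (M : ℝ) ≤ 2 * Real.log M * (Nat.primeCounting M : ℝ) := by
  have h1 := (Real.isLittleO_log_id_atTop).bound (c := (9 : ℝ) / 100) (by norm_num)
  rw [Filter.eventually_atTop] at h1
  obtain ⟨x₀, hx₀⟩ := h1
  refine ⟨⌈x₀⌉₊ + 2, fun M hM => ?_⟩
  have hM2 : (2 : ℝ) ≤ M := by exact_mod_cast (show 2 ≤ M by omega)
  have hMx : x₀ ≤ (M : ℝ) + 1 := by
    have h2 : x₀ ≤ (⌈x₀⌉₊ : ℝ) := Nat.le_ceil _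
    have h3 : ((⌈x₀⌉₊ : ℕ) : ℝ) ≤ (M : ℝ) := by exact_mod_cast (show ⌈x₀⌉₊ ≤ M by omega)
    linarith
  have h4 := hx₀ _ hMx
  simp only [id, Real.norm_eq_abs] at h4
  rw [abs_of_nonneg (Real.log_nonneg (by linarith)), abs_of_nonneg (by linarith : (0:ℝ) ≤ (M:ℝ) + 1)] at h4
  have h5 := Chebyshev.pi_ge M
  have hlog : 0 < Real.log M := Real.log_pos (by linarith)
  rw [div_le_iff₀ hlog] at h5
  have h6 := Real.log_two_gt_d9
  nlinarith [h4, h5, h6]

/-- Two disjoint pools of primes with a Chebyshev type lower bound. -/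
theorem exists_pools : ∃ k₀ : ℕ, ∀ k ≥ k₀, ∃ Λ : ℕ, Λ ^ 16 ≤ k ∧
    k ^ 64 ≤ Λ * ((Finset.Icc 1 (k ^ 64)).filter Nat.Prime).card ∧
    k ^ 128 ≤ Λ * ((Finset.Ioc (k ^ 64) (k ^ 128)).filter Nat.Prime).card := by
  obtain ⟨M₀, hM₀⟩ := pools_pi
  have h1 := (Real.isLittleO_pow_log_id_atTop (n := 16)).bound (c := (1 : ℝ) / 1024 ^ 16) (by norm_num)
  rw [Filter.eventually_atTop] at h1
  obtain ⟨x₀, hx₀⟩ := h1
  refine ⟨M₀ + ⌈x₀⌉₊ + 3, fun k hk => ?_⟩
  have hk3 : (3 : ℝ) ≤ k := by exact_mod_cast (show 3 ≤ k by omega)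
  have hkx : x₀ ≤ (k : ℝ) := by
    have h2 : x₀ ≤ (⌈x₀⌉₊ : ℝ) := Nat.le_ceil _
    have h3 : ((⌈x₀⌉₊ : ℕ) : ℝ) ≤ (k : ℝ) := by exact_mod_cast (show ⌈x₀⌉₊ ≤ k by omega)
    linarith
  have hlog1 : 1 ≤ Real.log k := by
    rw [Real.le_log_iff_exp_le (by linarith)]
    have := Real.exp_one_lt_d9
    linarith
  have h4 := hx₀ _ hkx
  simp only [id, Real.norm_eq_abs] at h4
  rw [abs_of_nonneg (by positivity), abs_of_nonneg (by linarith : (0:ℝ) ≤ (k:ℝ))] at h4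
  have hΛ1 : 1023 * Real.log k ≤ (⌈1023 * Real.log k⌉₊ : ℝ) := Nat.le_ceil _
  have hΛ2 : (⌈1023 * Real.log k⌉₊ : ℝ) ≤ 1024 * Real.log k := by
    have := (Nat.ceil_lt_add_one (by positivity : 0 ≤ 1023 * Real.log k)).le
    linarith
  have hkge : ∀ n : ℕ, 1 ≤ n → M₀ ≤ k ^ n := by
    intro n hn
    calc M₀ ≤ k := by omega
      _ = k ^ 1 := (pow_one k).symm
      _ ≤ k ^ n := Nat.pow_le_pow_right (by omega) hn
  refine ⟨⌈1023 * Real.log k⌉₊, ?_, ?_, ?_⟩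
  · have h5 : ((⌈1023 * Real.log k⌉₊ : ℕ) : ℝ) ^ 16 ≤ (k : ℝ) := by
      calc ((⌈1023 * Real.log k⌉₊ : ℕ) : ℝ) ^ 16 ≤ (1024 * Real.log k) ^ 16 := by
            gcongr
        _ = 1024 ^ 16 * Real.log k ^ 16 := by rw [mul_pow]
        _ ≤ 1024 ^ 16 * (1 / 1024 ^ 16 * k) := by gcongr
        _ = k := by ring
    exact_mod_cast h5
  · have h5 := hM₀ _ (hkge 64 (by norm_num))
    rw [pools_card]
    have h6 : ((k ^ 64 : ℕ) : ℝ) ≤ (⌈1023 * Real.log k⌉₊ : ℝ) * (Nat.primeCounting (k ^ 64) : ℝ) := by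
      refine h5.trans ?_
      refine mul_le_mul_of_nonneg_right ?_ (by positivity)
      push_cast
      rw [Real.log_pow]
      push_cast
      linarith
    exact_mod_cast h6
  · have h5 := hM₀ _ (hkge 128 (by norm_num))
    have h6 := pools_card_add (k ^ 64) (k ^ 128) (Nat.pow_le_pow_right (by omega) (by norm_num))
    rw [pools_card] at h6
    set c := ((Finset.Ioc (k ^ 64) (k ^ 128)).filter Nat.Prime).card with hc
    have h7 : ((Nat.primeCounting (k ^ 128) : ℕ) : ℝ) ≤ (k : ℝ) ^ 64 + c := by exact_mod_cast h6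
    have h8 : 512 * Real.log k ≤ (k : ℝ) ^ 64 := by
      have e1 : (1 : ℝ) ≤ (k : ℝ) ^ 63 := one_le_pow₀ (by linarith)
      have e2 : 1024 * Real.log k ≤ k := by
        have e3 : 1024 * Real.log k ≤ (1024 * Real.log k) ^ 16 := le_self_pow₀ (by linarith) (by norm_num)
        calc 1024 * Real.log k ≤ (1024 * Real.log k) ^ 16 := e3
          _ = 1024 ^ 16 * Real.log k ^ 16 := by rw [mul_pow]
          _ ≤ 1024 ^ 16 * (1 / 1024 ^ 16 * k) := by gcongr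
          _ = k := by ring
      calc 512 * Real.log k ≤ 1024 * Real.log k := by linarith
        _ ≤ k := e2
        _ = k * 1 := (mul_one _).symm
        _ ≤ k * (k : ℝ) ^ 63 := by gcongr
        _ = (k : ℝ) ^ 64 := by ring
    have h9 : ((k : ℝ)) ^ 128 ≤ (⌈1023 * Real.log k⌉₊ : ℝ) * c := by
      push_cast at h5
      rw [Real.log_pow] at h5
      push_cast at h5
      -- k^128 ≤ 256 log k * π ≤ 256 log k (k^64 + c) ≤ k^128/2 + 256 log k c
      have e1 : (k : ℝ) ^ 128 ≤ 2 * (128 * Real.log k) * ((k : ℝ) ^ 64 + c) := by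
        refine h5.trans ?_
        refine mul_le_mul_of_nonneg_left h7 (by positivity)
      have e2 : 512 * Real.log k * (k : ℝ) ^ 64 ≤ (k : ℝ) ^ 64 * (k : ℝ) ^ 64 :=
        mul_le_mul_of_nonneg_right h8 (by positivity)
      have e3 : (k : ℝ) ^ 64 * (k : ℝ) ^ 64 = (k : ℝ) ^ 128 := by ring
      have e4 : (0 : ℝ) ≤ c := by positivity
      have e5 : 1023 * Real.log k * c ≤ (⌈1023 * Real.log k⌉₊ : ℝ) * c := mul_le_mul_of_nonneg_right hΛ1 e4
      have e6 : 0 ≤ Real.log k * c := by positivity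
      nlinarith [e1, e2, e3, e5, e6]
    exact_mod_cast h9

end Crest.Agent.S0025
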