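import Crest.Agent.S0025.LemV
import Crest.Agent.S0025.Pools

set_option autoImplicit false

namespace Crest.Agent.S0025

open Finset

theorem sum_flatMap_mul (l₁ l₂ : List ℕ) :
    (l₁.flatMap fun a => l₂.map fun b => a * b).sum = l₁.sum * l₂.sum := by
  induction l₁ with
  | nil => simp
  | cons a l ih =>
    rw [List.flatMap_cons, List.sum_append, ih, List.sum_cons, add_mul, List.sum_map_mul_left]
    simp

/-- Multiplicativity of `Rep`. -/
theorem Rep.mul {s₁ s₂ ℓ₁ ℓ₂ G₁ G₂ : ℕ} (h₁ : Rep s₁ ℓ₁ G₁) (h₂ : Rep s₂ ℓ₂ G₂) :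
    Rep (s₁ * s₂) (ℓ₁ * ℓ₂) (G₁ * G₂) := by
  obtain ⟨l₁, hn₁, hl₁, hd₁, hs₁⟩ := h₁
  obtain ⟨l₂, hn₂, hl₂, hd₂, hs₂⟩ := h₂
  refine ⟨l₁.flatMap fun a => l₂.map fun b => a * b, ?_, ?_, ?_, ?_⟩
  · obtain ⟨a, t₁, rfl⟩ := List.exists_cons_of_ne_nil hn₁
    obtain ⟨b, t₂, rfl⟩ := List.exists_cons_of_ne_nil hn₂
    simp
  · rw [List.length_flatMap]
    simp only [List.length_map]
    rw [List.map_const', List.sum_replicate, smul_eq_mul]
    exact Nat.mul_le_mul hl₁ hl₂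
  · intro g hg
    rw [List.mem_flatMap] at hg
    obtain ⟨a, ha, hg⟩ := hg
    rw [List.mem_map] at hg
    obtain ⟨b, hb, rfl⟩ := hg
    exact Nat.mul_dvd_mul (hd₁ a ha) (hd₂ b hb)
  · rw [sum_flatMap_mul]
    exact Nat.mul_dvd_mul hs₁ hs₂

theorem pow_div_dvd_factorial (p k : ℕ) (hp : 0 < p) : p ^ (k / p) ∣ k.factorial := by
  have h : ∀ a : ℕ, p ^ a ∣ (p * a).factorial := by
    intro a
    induction a with
    | zero => simp
    | succ a ih =>
      have h1 : (p * (a + 1)).factorial = (p * (a + 1)) * (p * (a + 1) - 1).factorial :=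
        (Nat.mul_factorial_pred (by positivity)).symm
      rw [h1, pow_succ, mul_comm (p ^ a) p]
      refine Nat.mul_dvd_mul (Dvd.intro _ rfl) (ih.trans (Nat.factorial_dvd_factorial ?_))
      have : p * (a + 1) = p * a + p := by ring
      omega
  exact (h (k / p)).trans (Nat.factorial_dvd_factorial (Nat.mul_div_le k p))

/-- `p^(k/p+1) ∣ G` for primes `p` dividing `G/gcd(G,k!)`. -/
theorem pow_dvd_of_dvd_quot {k G p : ℕ} (hG : 1 ≤ G) (hp : p.Prime)
    (hpG : p ∣ G / Nat.gcd G k.factorial) : p ^ (k / p + 1) ∣ G := by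
  have h1 : p * Nat.gcd G k.factorial ∣ G := by
    obtain ⟨c, hc⟩ := hpG
    have h2 : G / Nat.gcd G k.factorial * Nat.gcd G k.factorial = G :=
      Nat.div_mul_cancel (Nat.gcd_dvd_left _ _)
    refine ⟨c, ?_⟩
    calc G = G / Nat.gcd G k.factorial * Nat.gcd G k.factorial := h2.symm
      _ = p * Nat.gcd G k.factorial * c := by rw [hc]; ring
  by_contra hcon
  have := Fact.mk hp
  have hG0 : G ≠ 0 := by omega
  set v := padicValNat p G with hv
  have hva : v ≤ k / p := by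
    by_contra h
    push Not at h
    exact hcon ((pow_dvd_pow p (by omega)).trans (pow_padicValNat_dvd (p := p) (n := G)))
  have h3 : p ^ v ∣ Nat.gcd G k.factorial :=
    Nat.dvd_gcd pow_padicValNat_dvd ((pow_dvd_pow p hva).trans (pow_div_dvd_factorial p k hp.pos))
  have h4 : p ^ (v + 1) ∣ G := by
    rw [pow_succ']
    exact (Nat.mul_dvd_mul_left p h3).trans h1
  exact pow_succ_padicValNat_not_dvd hG0 h4

theorem prod_pow_dvd {k G : ℕ} (hG : 1 ≤ G) (S : Finset ℕ)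
    (hS : ∀ p ∈ S, p.Prime ∧ p ∣ G / Nat.gcd G k.factorial) :
    ∏ p ∈ S, p ^ (k / p + 1) ∣ G := by
  refine Finset.prod_dvd_of_isRelPrime ?_ ?_
  · intro p hp q hq hpq
    show IsRelPrime (p ^ (k / p + 1)) (q ^ (k / q + 1))
    rw [← Nat.coprime_iff_isRelPrime]
    exact Nat.coprime_pow_primes _ _ (hS p hp).1 (hS q hq).1 hpq
  · intro p hp
    exact pow_dvd_of_dvd_quot hG (hS p hp).1 (hS p hp).2

theorem sum_div_le {k m G : ℕ} (hG : 1 ≤ G) (hG2 : G ≤ 2 ^ m) (S : Finset ℕ)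
    (hS : ∀ p ∈ S, p.Prime ∧ p ∣ G / Nat.gcd G k.factorial) :
    ∑ p ∈ S, (k / p + 1) ≤ m := by
  have h1 : ∏ p ∈ S, 2 ^ (k / p + 1) ≤ ∏ p ∈ S, p ^ (k / p + 1) :=
    Finset.prod_le_prod' fun p hp => Nat.pow_le_pow_left (hS p hp).1.two_le _
  rw [Finset.prod_pow_eq_pow_sum] at h1
  have h2 := Nat.le_of_dvd (by omega) (prod_pow_dvd (k := k) hG S hS)
  exact (Nat.pow_le_pow_iff_right (by norm_num)).1 ((h1.trans h2).trans hG2)

/-- Removing `gcd(G, k!)` leaves a number with few small primes. -/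
theorem quot_props (k m G : ℕ) (hkm : k = 10000 * m) (_hm : 1 ≤ m) (hG : 1 ≤ G) (hG2 : G ≤ 2 ^ m) :
    (∀ p : ℕ, p.Prime → p ∣ G / Nat.gcd G k.factorial → 10000 ≤ p) ∧
      10000 * ((Finset.Icc 1 k).filter
        fun r => ¬ Nat.Coprime r (G / Nat.gcd G k.factorial)).card ≤ k := by
  constructor
  · intro p hp hpG
    have h1 := sum_div_le (k := k) hG hG2 {p} (by
      intro q hq
      rw [Finset.mem_singleton] at hq
      subst hq
      exact ⟨hp, hpG⟩)
    rw [Finset.sum_singleton] at h1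
    by_contra hlt
    push Not at hlt
    have h2 : m ≤ k / p := by
      rw [Nat.le_div_iff_mul_le hp.pos, hkm, mul_comm 10000 m]
      exact Nat.mul_le_mul_left m hlt.le
    omega
  · set G' := G / Nat.gcd G k.factorial with hG'
    have hG'0 : G' ≠ 0 := by
      have : 0 < G' := Nat.div_pos (Nat.le_of_dvd hG (Nat.gcd_dvd_left _ _))
        (Nat.gcd_pos_of_pos_left _ hG)
      omega
    have h1 := sum_div_le (k := k) hG hG2 G'.primeFactors (by
      intro p hp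
      exact ⟨Nat.prime_of_mem_primeFactors hp, Nat.dvd_of_mem_primeFactors hp⟩)
    have h2 : ((Finset.Icc 1 k).filter fun r => ¬ Nat.Coprime r G') ⊆
        G'.primeFactors.biUnion fun p => (Finset.Icc 1 k).filter fun r => p ∣ r := by
      intro r hr
      rw [Finset.mem_filter] at hr
      rw [Finset.mem_biUnion]
      obtain ⟨p, hp, hpr, hpG⟩ := Nat.Prime.not_coprime_iff_dvd.1 hr.2
      exact ⟨p, Nat.mem_primeFactors.2 ⟨hp, hpG, hG'0⟩, Finset.mem_filter.2 ⟨hr.1, hpr⟩⟩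
    have h3 : ∀ p ∈ G'.primeFactors, ((Finset.Icc 1 k).filter fun r => p ∣ r).card ≤ k / p + 1 := by
      intro p hp
      have h4 : (Finset.Icc 1 k) = Finset.Ioc 0 k := rfl
      rw [h4, Nat.Ioc_filter_dvd_card_eq_div]
      omega
    have h4 := (Finset.card_le_card h2).trans
      (Finset.card_biUnion_le.trans (Finset.sum_le_sum h3))
    omega

/-- split off the part of `n` composed of primes dividing `R` -/
theorem exists_split (R n : ℕ) (hn : 1 ≤ n) : ∃ a b : ℕ, n = a * b ∧ Nat.Coprime a R ∧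
    ∀ p : ℕ, p.Prime → p ∣ b → p ∣ R := by
  induction n using Nat.strong_induction_on with
  | _ n ih =>
    by_cases h : Nat.Coprime n R
    · refine ⟨n, 1, by simp, h, fun p hp hp1 => ?_⟩
      exact absurd (Nat.dvd_one.1 hp1) hp.one_lt.ne'
    · obtain ⟨p, hp, hpn, hpR⟩ := Nat.Prime.not_coprime_iff_dvd.1 h
      obtain ⟨n', rfl⟩ := hpn
      have hn' : 1 ≤ n' := by
        rcases Nat.eq_zero_or_pos n' with h0 | h0
        · subst h0; simp at hn
        · exact h0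
      have hlt : n' < p * n' := by
        have := hp.two_le
        nlinarith
      obtain ⟨a, b, hab, ha, hb⟩ := ih n' hlt hn'
      refine ⟨a, p * b, by rw [hab]; ring, ha, fun q hq hqb => ?_⟩
      rcases (Nat.Prime.dvd_mul hq).1 hqb with h1 | h1
      · rw [(Nat.prime_dvd_prime_iff_eq hq hp).1 h1]; exact hpR
      · exact hb q hq h1

/-- Lemma U: existence of universal numbers. -/
theorem exists_univ : ∃ C ℓ m₀ : ℕ, ∀ m ≥ m₀, ∃ s : ℕ, Univ s (2 ^ m) ℓ ∧
    s ≤ 2 ^ (C * m * Nat.log 2 m) := by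
  obtain ⟨k₀, hpools⟩ := exists_pools
  refine ⟨491620000, 64, max (max k₀ (3 ^ 70)) (2 ^ 15), fun m hm => ?_⟩
  have hm1 : k₀ ≤ m := (le_max_left _ _).trans ((le_max_left _ _).trans hm)
  have hm2 : 3 ^ 70 ≤ m := (le_max_right _ _).trans ((le_max_left _ _).trans hm)
  have hm3 : 2 ^ 15 ≤ m := (le_max_right _ _).trans hm
  have hm4 : 1 ≤ m := le_trans (by norm_num) hm3
  obtain ⟨k, hk⟩ : ∃ k, k = 10000 * m := ⟨_, rfl⟩
  have hmk : m ≤ k := by omega
  have hk1 : 1 ≤ k := by omega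
  obtain ⟨Λ, hΛ1, hΛ2, hΛ3⟩ := hpools k (hm1.trans hmk)
  obtain ⟨R₁, hR1, hR1b, hR1p, hR1G⟩ := lemmaV k m (k ^ 64) Λ
    ((Finset.Icc 1 (k ^ 64)).filter Nat.Prime) (by
      intro p hp
      rw [Finset.mem_filter, Finset.mem_Icc] at hp
      exact ⟨hp.2, hp.1.2⟩) (by omega) (hm2.trans hmk) le_rfl hΛ2 hΛ1
  obtain ⟨R₂, hR2, hR2b, hR2p, hR2G⟩ := lemmaV k m (k ^ 128) Λ
    ((Finset.Ioc (k ^ 64) (k ^ 128)).filter Nat.Prime) (by
      intro p hp
      rw [Finset.mem_filter, Finset.mem_Ioc] at hp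
      exact ⟨hp.2, hp.1.2⟩) (by omega) (hm2.trans hmk)
      (Nat.pow_le_pow_right hk1 (by norm_num)) hΛ3 hΛ1
  have hkf : 0 < k.factorial := Nat.factorial_pos k
  refine ⟨k.factorial * (k.factorial ^ 2 * R₁ ^ 2) * (k.factorial ^ 2 * R₂ ^ 2), ⟨by positivity, ?_⟩, ?_⟩
  · intro G hG1 hG2
    obtain ⟨hq1, hq2⟩ := quot_props k m G hk hm4 hG1 hG2
    have hGg : Nat.gcd G k.factorial * (G / Nat.gcd G k.factorial) = G :=
      Nat.mul_div_cancel' (Nat.gcd_dvd_left _ _)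
    have hG' : 1 ≤ G / Nat.gcd G k.factorial :=
      Nat.div_pos (Nat.le_of_dvd hG1 (Nat.gcd_dvd_left _ _)) (Nat.gcd_pos_of_pos_left _ hG1)
    have hG'le : G / Nat.gcd G k.factorial ≤ 2 ^ m := (Nat.div_le_self _ _).trans hG2
    generalize G / Nat.gcd G k.factorial = G' at *
    obtain ⟨a, b, hab, ha, hb⟩ := exists_split R₁ G' hG'
    have ha1 : 1 ≤ a := by
      rcases Nat.eq_zero_or_pos a with h0 | h0
      · subst h0; omega
      · exact h0
    have hb1 : 1 ≤ b := by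
      rcases Nat.eq_zero_or_pos b with h0 | h0
      · subst h0; omega
      · exact h0
    have hsub : ∀ c : ℕ, c ∣ G' → ((Finset.Icc 1 k).filter fun r => ¬ Nat.Coprime r c).card ≤
        ((Finset.Icc 1 k).filter fun r => ¬ Nat.Coprime r G').card := by
      intro c hc
      refine Finset.card_le_card fun r hr => ?_
      rw [Finset.mem_filter] at hr ⊢
      exact ⟨hr.1, fun h => hr.2 (Nat.Coprime.coprime_dvd_right hc h)⟩
    have haG : a ∣ G' := ⟨b, hab⟩
    have hbG : b ∣ G' := ⟨a, by rw [hab]; ring⟩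
    have hr1 : Rep (k.factorial ^ 2 * R₁ ^ 2) 8 a :=
      hR1G a ha1 ((Nat.le_of_dvd hG' haG).trans hG'le) ha (fun p hp hpa => hq1 p hp (hpa.trans haG))
        (le_trans (Nat.mul_le_mul_left _ (hsub a haG)) hq2)
    have hcop : Nat.Coprime b R₂ := by
      rw [Nat.coprime_iff_isRelPrime]
      by_contra h
      rw [← Nat.coprime_iff_isRelPrime] at h
      obtain ⟨p, hp, hpb, hpR⟩ := Nat.Prime.not_coprime_iff_dvd.1 h
      have h1 := hR1p p hp (hb p hp hpb)
      have h2 := hR2p p hp hpR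
      rw [Finset.mem_filter, Finset.mem_Icc] at h1
      rw [Finset.mem_filter, Finset.mem_Ioc] at h2
      omega
    have hr2 : Rep (k.factorial ^ 2 * R₂ ^ 2) 8 b :=
      hR2G b hb1 ((Nat.le_of_dvd hG' hbG).trans hG'le) hcop
        (fun p hp hpb => hq1 p hp (hpb.trans hbG))
        (le_trans (Nat.mul_le_mul_left _ (hsub b hbG)) hq2)
    have hr0 : Rep k.factorial 1 (Nat.gcd G k.factorial) :=
      ⟨[Nat.gcd G k.factorial], by simp, by simp, by simpa using Nat.gcd_dvd_right _ _, by simp⟩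
    have h := (hr0.mul hr1).mul hr2
    have e : Nat.gcd G k.factorial * a * b = G := by rw [mul_assoc, ← hab, hGg]
    rw [e] at h
    exact h
  · -- size
    have h1 : k.factorial ≤ k ^ k := Nat.factorial_le_pow k
    have h2 : k.factorial * (k.factorial ^ 2 * R₁ ^ 2) * (k.factorial ^ 2 * R₂ ^ 2) ≤
        k ^ k * ((k ^ k) ^ 2 * (((k ^ 64) ^ (64 * k)) ^ 2)) * ((k ^ k) ^ 2 * (((k ^ 128) ^ (64 * k)) ^ 2)) := by
      gcongr
    have h3 : k ^ k * ((k ^ k) ^ 2 * (((k ^ 64) ^ (64 * k)) ^ 2)) *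
        ((k ^ k) ^ 2 * (((k ^ 128) ^ (64 * k)) ^ 2)) = k ^ (24581 * k) := by
      simp only [← pow_mul, ← pow_add]
      congr 1
      ring
    have hlog : 15 ≤ Nat.log 2 m := by
      exact Nat.le_log_of_pow_le (by norm_num) hm3
    have hmlt : m < 2 ^ (Nat.log 2 m + 1) := Nat.lt_pow_succ_log_self (by norm_num) m
    have h4 : k ≤ 2 ^ (2 * Nat.log 2 m) := by
      calc k = 10000 * m := hk
        _ ≤ 2 ^ 14 * 2 ^ (Nat.log 2 m + 1) := Nat.mul_le_mul (by norm_num) hmlt.le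
        _ = 2 ^ (Nat.log 2 m + 15) := by rw [← pow_add]; congr 1; ring
        _ ≤ 2 ^ (2 * Nat.log 2 m) := Nat.pow_le_pow_right (by norm_num) (by omega)
    calc _ ≤ k ^ (24581 * k) := h2.trans_eq h3
      _ ≤ (2 ^ (2 * Nat.log 2 m)) ^ (24581 * k) := Nat.pow_le_pow_left h4 _
      _ = 2 ^ (491620000 * m * Nat.log 2 m) := by
          rw [← pow_mul, hk]; congr 1; ring

end Crest.Agent.S0025
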