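import Mathlib

set_option autoImplicit false

namespace Crest.Agent.S0025

open Finset

/-- `Rep s ℓ G`: `G` divides a nonempty sum of at most `ℓ` divisors of `s` (repetitions allowed). -/
def Rep (s ℓ G : ℕ) : Prop :=
  ∃ l : List ℕ, l ≠ [] ∧ l.length ≤ ℓ ∧ (∀ g ∈ l, g ∣ s) ∧ G ∣ l.sum

/-- `Univ s W ℓ`: every `1 ≤ G ≤ W` divides a nonempty sum of at most `ℓ` divisors of `s`. -/
def Univ (s W ℓ : ℕ) : Prop :=
  0 < s ∧ ∀ G : ℕ, 1 ≤ G → G ≤ W → Rep s ℓ G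

/-- Number of collisions modulo `N` of a finite family. -/
def coll {α : Type*} [Fintype α] (N : ℕ) (f : α → ℕ) : ℕ :=
  (Finset.univ.filter fun p : α × α => f p.1 ≡ f p.2 [MOD N]).card

/-- subset products of a family `q`. -/
def sprod {n : ℕ} (q : Fin n → ℕ) (I : Finset (Fin n)) : ℕ := ∏ i ∈ I, q i

/-- `e(z/N)`. -/
noncomputable def ee (N z : ℕ) : ℂ := Complex.exp (2 * Real.pi * Complex.I * ((z : ℂ) / (N : ℂ)))

end Crest.Agent.S0025
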