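import Crest.Agent.Egy.Distinct
import Crest.Agent.S0025.Basic

/-!
# Row 19: reduction of S0025 to the "universal number" lemma (helper7's proof, T2)
-/

set_option autoImplicit false

namespace Crest.Agent.S0025

open Crest.Agent.Egy

/-- The key consequence: the free multiplier trick. -/
theorem Univ.uf {s W l : ℕ} (h : Univ s W l) {G D : ℕ} (hG : G ≤ W) (hD : 1 ≤ D) :
    UF l ((G : ℚ) / ((D : ℚ) * s)) := by
  obtain ⟨hs, hU⟩ := h
  rcases Nat.eq_zero_or_pos G with hG0 | hG0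
  · subst hG0; simpa using UF.zero l
  obtain ⟨L, hL0, hLl, hL, P, hP⟩ := hU G hG0 hG
  have hgpos : ∀ d ∈ L, 0 < d := fun d hd => Nat.pos_of_dvd_of_pos (hL d hd) hs
  have hsum : 0 < L.sum := by
    obtain ⟨d, L', rfl⟩ := List.exists_cons_of_ne_nil hL0
    rw [List.sum_cons]
    have := hgpos d (by simp)
    omega
  have hPpos : 0 < P := by
    rcases Nat.eq_zero_or_pos P with h0 | h0
    · subst h0; rw [Nat.mul_zero] at hP; omega
    · exact h0
  refine ⟨(L.map (fun d => P * D * (s / d)) : List ℕ), ?_, ?_, ?_⟩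
  · simpa using hLl
  · intro n hn
    rw [Multiset.mem_coe, List.mem_map] at hn
    obtain ⟨d, hd, rfl⟩ := hn
    have : 0 < s / d := Nat.div_pos (Nat.le_of_dvd hs (hL d hd)) (hgpos d hd)
    exact Nat.succ_le_of_lt (by positivity)
  · rw [Multiset.map_coe, Multiset.sum_coe, List.map_map]
    have h3 : (P : ℚ) ≠ 0 := by positivity
    have h4 : (D : ℚ) ≠ 0 := by positivity
    have h5 : (s : ℚ) ≠ 0 := by positivity
    have key : ∀ L : List ℕ, (∀ d ∈ L, d ∣ s) →
        (L.map ((fun n : ℕ => (1 : ℚ) / (n : ℚ)) ∘ fun d => P * D * (s / d))).sum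
          = (L.sum : ℚ) / (P * D * s) := by
      intro L
      induction L with
      | nil => intro _; simp
      | cons d L ih =>
        intro hall
        rw [List.map_cons, List.sum_cons, ih (fun x hx => hall x (by simp [hx])), List.sum_cons]
        have hd : d ∣ s := hall d (by simp)
        have hd0 : 0 < d := Nat.pos_of_dvd_of_pos hd hs
        obtain ⟨r, hr⟩ := hd
        have hr0 : 0 < r := by
          rcases Nat.eq_zero_or_pos r with h0 | h0
          · subst h0; rw [Nat.mul_zero] at hr; omega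
          · exact h0
        have hdiv : s / d = r := by rw [hr]; exact Nat.mul_div_cancel_left r hd0
        have h1 : (d : ℚ) ≠ 0 := by positivity
        have h2 : (r : ℚ) ≠ 0 := by positivity
        simp only [Function.comp_apply]
        rw [hdiv]
        push_cast
        have hs' : (s : ℚ) = d * r := by exact_mod_cast hr
        rw [hs']
        field_simp
    rw [key L hL]
    have : (L.sum : ℚ) = (G : ℚ) * P := by exact_mod_cast hP
    rw [this]
    field_simp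

/-- Phase 1 state: `v = a/b - (j unit fractions)` with controlled denominator. -/
def Reach (a b E j : ℕ) (v : ℚ) : Prop :=
  ∃ D : List ℕ, (∀ d ∈ D, 1 ≤ d ∧ d ≤ b ^ 2) ∧ D.length ≤ j ∧
    (∃ A : ℕ, v = (A : ℚ) / ((b : ℚ) * 2 ^ E * (D.prod : ℕ))) ∧ UF j ((a : ℚ) / b - v)

theorem Reach.zero {a b E : ℕ} (hb : 1 ≤ b) : Reach a b E 0 ((a : ℚ) / b) := by
  refine ⟨[], by simp, by simp, ⟨a * 2 ^ E, ?_⟩, by simpa using UF.zero 0⟩
  have : (b : ℚ) ≠ 0 := by positivity
  push_cast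
  simp
  field_simp

theorem Reach.mono {a b E j j' : ℕ} {v : ℚ} (h : Reach a b E j v) (hj : j ≤ j') :
    Reach a b E j' v := by
  obtain ⟨D, h1, h2, h3, h4⟩ := h
  exact ⟨D, h1, h2.trans hj, h3, h4.mono hj⟩

theorem Reach.step {a b E j e d : ℕ} {v : ℚ} (hb : 1 ≤ b) (h : Reach a b E j v) (he : e ≤ E)
    (hd : 1 ≤ d) (hd2 : d ≤ b ^ 2) (hnn : 0 ≤ v - 1 / (2 ^ e * (d : ℚ))) :
    Reach a b E (j + 1) (v - 1 / (2 ^ e * (d : ℚ))) := by
  obtain ⟨D, h1, h2, ⟨A, hA⟩, h4⟩ := h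
  have hDpos : 0 < D.prod := by
    apply Nat.pos_of_ne_zero
    rw [Ne, List.prod_eq_zero_iff]
    intro h0
    have := (h1 0 h0).1
    omega
  have hb0 : (b : ℚ) ≠ 0 := by positivity
  have hd0 : (d : ℚ) ≠ 0 := by positivity
  refine ⟨d :: D, ?_, ?_, ?_, ?_⟩
  · intro x hx
    rcases List.mem_cons.1 hx with rfl | hx
    · exact ⟨hd, hd2⟩
    · exact h1 x hx
  · rw [List.length_cons]; omega
  · rw [List.prod_cons]
    generalize D.prod = Dp at *
    have hD0 : (Dp : ℚ) ≠ 0 := by positivity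
    set z : ℤ := (A : ℤ) * d - b * 2 ^ (E - e) * (Dp : ℕ) with hz
    have hvz : v - 1 / (2 ^ e * (d : ℚ)) = (z : ℚ) / ((b : ℚ) * 2 ^ E * ((d * Dp : ℕ) : ℚ)) := by
      rw [hA, hz]
      have hE : (2 : ℚ) ^ E = 2 ^ (E - e) * 2 ^ e := by rw [← pow_add]; congr 1; omega
      rw [hE]
      push_cast
      field_simp
    have hz0 : 0 ≤ z := by
      by_contra hneg
      push Not at hneg
      have h5 : (z : ℚ) < 0 := by exact_mod_cast hneg
      have h6 : (0 : ℚ) < (b : ℚ) * 2 ^ E * ((d * Dp : ℕ) : ℚ) := by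
        positivity
      have := div_neg_of_neg_of_pos h5 h6
      rw [← hvz] at this
      linarith
    refine ⟨z.toNat, ?_⟩
    rw [hvz]
    have : ((z.toNat : ℕ) : ℚ) = (z : ℚ) := by
      have := Int.toNat_of_nonneg hz0
      exact_mod_cast this
    rw [this]
  · have h5 : (a : ℚ) / b - (v - 1 / (2 ^ e * (d : ℚ)))
        = ((a : ℚ) / b - v) + 1 / ((2 ^ e * d : ℕ) : ℚ) := by push_cast; ring
    rw [h5]
    exact h4.add (UF.unit (Nat.succ_le_of_lt (by positivity)))

/-- one greedy step -/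
theorem greedy_aux {y : ℚ} (hy : 0 < y) :
    0 ≤ y - 1 / (⌈1 / y⌉₊ : ℚ) ∧ y - 1 / (⌈1 / y⌉₊ : ℚ) ≤ y / (⌈1 / y⌉₊ : ℚ) ∧ 0 < ⌈1 / y⌉₊ := by
  have h1 : 0 < 1 / y := by positivity
  have h2 : 1 / y ≤ (⌈1 / y⌉₊ : ℚ) := Nat.le_ceil _
  have h3 : (⌈1 / y⌉₊ : ℚ) < 1 / y + 1 := Nat.ceil_lt_add_one h1.le
  have h4 : 0 < ⌈1 / y⌉₊ := Nat.ceil_pos.2 h1
  have h5 : (0 : ℚ) < (⌈1 / y⌉₊ : ℚ) := by exact_mod_cast h4
  refine ⟨?_, ?_, h4⟩
  · rw [sub_nonneg, div_le_iff₀ h5]
    rw [div_le_iff₀ hy] at h2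
    linarith
  · rw [sub_le_iff_le_add, ← add_div, le_div_iff₀ h5]
    have : y * (⌈1 / y⌉₊ : ℚ) < y * (1 / y + 1) := mul_lt_mul_of_pos_left h3 hy
    have e : y * (1 / y + 1) = 1 + y := by field_simp
    rw [e] at this
    linarith

theorem Reach.greedy {a b s j : ℕ} {v : ℚ} (hb : 2 ≤ b) (hs : 0 < s)
    (h : Reach a b (Nat.log 2 s) j v) (hv1 : v < 1) (hvs : 1 / (s : ℚ) ≤ v) :
    ∃ v', Reach a b (Nat.log 2 s) (j + 1) v' ∧ v' ≤ v / 2 ∧ (v' ≤ v / b ∨ v' ≤ v ^ 2) := by
  have hs0 : (0 : ℚ) < s := by exact_mod_cast hs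
  have hb0 : (2 : ℚ) ≤ b := by exact_mod_cast hb
  have hv0 : 0 < v := lt_of_lt_of_le (by positivity) hvs
  by_cases hcase : 1 < v * b
  · -- plain greedy
    obtain ⟨g1, g2, g3⟩ := greedy_aux hv0
    have g4 : (1 : ℚ) / v ≤ (⌈1 / v⌉₊ : ℚ) := Nat.le_ceil _
    have g5 : (0 : ℚ) < (⌈1 / v⌉₊ : ℚ) := by exact_mod_cast g3
    have hle : ⌈1 / v⌉₊ ≤ b ^ 2 := by
      have h5 : ⌈1 / v⌉₊ ≤ b := by
        apply Nat.ceil_le.2
        rw [div_le_iff₀ hv0]; linarith
      calc ⌈1 / v⌉₊ ≤ b := h5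
        _ ≤ b ^ 2 := by nlinarith
    have hst := h.step (e := 0) (d := ⌈1 / v⌉₊) (by omega) (Nat.zero_le _) g3 hle
      (by simpa using g1)
    refine ⟨_, hst, ?_, Or.inr ?_⟩
    · have h2 : (2 : ℚ) ≤ (⌈1 / v⌉₊ : ℚ) := by
        have : 1 < ⌈1 / v⌉₊ := by
          rw [Nat.lt_ceil]
          rw [lt_div_iff₀ hv0]
          push_cast; linarith
        exact_mod_cast this
      calc v - 1 / (2 ^ 0 * (⌈1 / v⌉₊ : ℚ)) = v - 1 / (⌈1 / v⌉₊ : ℚ) := by simp
        _ ≤ v / (⌈1 / v⌉₊ : ℚ) := g2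
        _ ≤ v / 2 := by
            apply div_le_div_of_nonneg_left hv0.le (by norm_num) h2
    · calc v - 1 / (2 ^ 0 * (⌈1 / v⌉₊ : ℚ)) = v - 1 / (⌈1 / v⌉₊ : ℚ) := by simp
        _ ≤ v / (⌈1 / v⌉₊ : ℚ) := g2
        _ ≤ v / (1 / v) := by
            apply div_le_div_of_nonneg_left hv0.le (by positivity) g4
        _ = v ^ 2 := by field_simp
  · push Not at hcase
    have hbv : 0 < (b : ℚ) * v := by positivity
    have hq1 : 1 ≤ ⌊1 / ((b : ℚ) * v)⌋₊ := by
      apply Nat.le_floor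
      rw [le_div_iff₀ hbv]
      push_cast; linarith
    set q := ⌊1 / ((b : ℚ) * v)⌋₊ with hq
    set e := Nat.log 2 q with he
    have hq2 : (q : ℚ) ≤ 1 / ((b : ℚ) * v) := Nat.floor_le (by positivity)
    have hq3 : 1 / ((b : ℚ) * v) < (q : ℚ) + 1 := Nat.lt_floor_add_one _
    have he1 : 2 ^ e ≤ q := Nat.pow_log_le_self 2 (by omega)
    have he2 : q < 2 ^ (e + 1) := Nat.lt_pow_succ_log_self (by norm_num) q
    have he1' : ((2 : ℚ) ^ e) ≤ 1 / ((b : ℚ) * v) := le_trans (by exact_mod_cast he1) hq2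
    have he2' : 1 / ((b : ℚ) * v) < (2 : ℚ) ^ (e + 1) := by
      refine lt_of_lt_of_le hq3 ?_
      exact_mod_cast he2
    have h2e : (0 : ℚ) < 2 ^ e := by positivity
    set y := v * 2 ^ e with hy
    have hy0 : 0 < y := by positivity
    obtain ⟨g1, g2, g3⟩ := greedy_aux hy0
    have g4 : (1 : ℚ) / y ≤ (⌈1 / y⌉₊ : ℚ) := Nat.le_ceil _
    have g5 : (0 : ℚ) < (⌈1 / y⌉₊ : ℚ) := by exact_mod_cast g3
    -- 1/y ≥ b
    have hyb : (b : ℚ) ≤ 1 / y := by
      rw [le_div_iff₀ hy0, hy]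
      rw [le_div_iff₀ hbv] at he1'
      nlinarith
    have hdb : (b : ℚ) ≤ (⌈1 / y⌉₊ : ℚ) := hyb.trans g4
    have hy2b : 1 / y ≤ ((2 * b : ℕ) : ℚ) := by
      rw [div_le_iff₀ hy0, hy]
      rw [div_lt_iff₀ hbv] at he2'
      push_cast
      rw [pow_succ] at he2'
      nlinarith
    have hd2 : ⌈1 / y⌉₊ ≤ b ^ 2 := by
      calc ⌈1 / y⌉₊ ≤ 2 * b := Nat.ceil_le.2 hy2b
        _ ≤ b ^ 2 := by nlinarith
    have heE : e ≤ Nat.log 2 s := by
      apply Nat.le_log_of_pow_le (by norm_num)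
      have h5 : ((2 : ℚ) ^ e) ≤ s := by
        refine he1'.trans ?_
        rw [div_le_iff₀ hbv]
        rw [div_le_iff₀ hs0] at hvs
        nlinarith
      exact_mod_cast h5
    have hident : v - 1 / (2 ^ e * (⌈1 / y⌉₊ : ℚ)) = (y - 1 / (⌈1 / y⌉₊ : ℚ)) / 2 ^ e := by
      rw [sub_div, hy]
      field_simp
    have hnn : 0 ≤ v - 1 / (2 ^ e * (⌈1 / y⌉₊ : ℚ)) := by
      rw [hident]; exact div_nonneg g1 h2e.le
    have hup : v - 1 / (2 ^ e * (⌈1 / y⌉₊ : ℚ)) ≤ v / b := by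
      rw [hident]
      calc (y - 1 / (⌈1 / y⌉₊ : ℚ)) / 2 ^ e ≤ (y / (⌈1 / y⌉₊ : ℚ)) / 2 ^ e :=
            div_le_div_of_nonneg_right g2 h2e.le
        _ = v / (⌈1 / y⌉₊ : ℚ) := by rw [hy]; field_simp
        _ ≤ v / b := div_le_div_of_nonneg_left hv0.le (by linarith) hdb
    refine ⟨_, h.step (by omega) heE g3 hd2 hnn, ?_, Or.inl hup⟩
    exact hup.trans (div_le_div_of_nonneg_left hv0.le (by norm_num) hb0)

/-- squaring phase -/
theorem chain1 {a b s : ℕ} (hb : 2 ≤ b) (hs : 0 < s) (hab : a < b) (j : ℕ) :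
    ∃ v, Reach a b (Nat.log 2 s) (j + 1) v ∧ v ≤ 1 / 2 ∧
      (v < 1 / (s : ℚ) ∨ v ≤ 1 / (b : ℚ) ∨ v ≤ 1 / 2 ^ (2 ^ j)) := by
  have hb0 : (2 : ℚ) ≤ b := by exact_mod_cast hb
  induction j with
  | zero =>
    have hv1 : (a : ℚ) / b < 1 := by
      rw [div_lt_one (by linarith)]; exact_mod_cast hab
    have h0 : Reach a b (Nat.log 2 s) 0 ((a : ℚ) / b) := Reach.zero (by omega)
    by_cases hvs : 1 / (s : ℚ) ≤ (a : ℚ) / b
    · obtain ⟨v', h1, h2, h3⟩ := h0.greedy hb hs hv1 hvs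
      refine ⟨v', h1, by linarith, Or.inr (Or.inr ?_)⟩
      norm_num
      linarith
    · push Not at hvs
      by_cases h2 : (a : ℚ) / b ≤ 1 / 2
      · exact ⟨_, h0.mono (by omega), h2, Or.inl hvs⟩
      · push Not at h2
        -- then `1/s > 1/2`, so `s = 1`; use the step 1/2 directly
        have hst := h0.step (e := 0) (d := 2) (by omega) (Nat.zero_le _) (by norm_num)
          (by nlinarith) (by norm_num; linarith)
        refine ⟨_, hst, ?_, Or.inr (Or.inr ?_)⟩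
        · norm_num; linarith
        · norm_num; linarith
  | succ j ih =>
    obtain ⟨v, h1, h2, h3⟩ := ih
    by_cases hvs : 1 / (s : ℚ) ≤ v
    · have hs0 : (0 : ℚ) < s := by exact_mod_cast hs
      have hv0 : 0 < v := lt_of_lt_of_le (by positivity) hvs
      obtain ⟨v', h1', h2', h3'⟩ := h1.greedy hb hs (by linarith) hvs
      refine ⟨v', h1', by linarith, ?_⟩
      rcases h3 with h3 | h3 | h3
      · linarith
      · right; left; linarith
      · rcases h3' with h3' | h3'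
        · right; left
          refine h3'.trans ?_
          apply div_le_div_of_nonneg_right _ (by linarith)
          linarith
        · right; right
          refine h3'.trans ?_
          calc v ^ 2 ≤ (1 / 2 ^ (2 ^ j)) ^ 2 := by
                apply pow_le_pow_left₀ hv0.le h3
            _ = 1 / 2 ^ (2 ^ (j + 1)) := by
                rw [div_pow, one_pow, ← pow_mul, pow_succ 2 j]
    · push Not at hvs
      exact ⟨v, h1.mono (by omega), h2, Or.inl hvs⟩

/-- geometric phase -/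
theorem chain2 {a b s J : ℕ} (hb : 2 ≤ b) (hs : 0 < s) (hab : a < b) (hJ : b ≤ 2 ^ 2 ^ J) (i : ℕ) :
    ∃ v, Reach a b (Nat.log 2 s) (J + 1 + i) v ∧ v ≤ 1 / 2 ∧
      (v < 1 / (s : ℚ) ∨ v ≤ 1 / (b : ℚ) ^ (i + 1)) := by
  have hb0 : (2 : ℚ) ≤ b := by exact_mod_cast hb
  induction i with
  | zero =>
    obtain ⟨v, h1, h2, h3⟩ := chain1 (s := s) hb hs hab J
    refine ⟨v, by simpa using h1, h2, ?_⟩
    rcases h3 with h3 | h3 | h3
    · exact Or.inl h3
    · right; simpa using h3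
    · right
      refine h3.trans ?_
      rw [zero_add, pow_one]
      apply div_le_div_of_nonneg_left (by norm_num) (by linarith)
      exact_mod_cast hJ
  | succ i ih =>
    obtain ⟨v, h1, h2, h3⟩ := ih
    by_cases hvs : 1 / (s : ℚ) ≤ v
    · have hs0 : (0 : ℚ) < s := by exact_mod_cast hs
      have hv0 : 0 < v := lt_of_lt_of_le (by positivity) hvs
      obtain ⟨v', h1', h2', h3'⟩ := h1.greedy hb hs (by linarith) hvs
      refine ⟨v', h1', by linarith, ?_⟩
      rcases h3 with h3 | h3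
      · linarith
      · right
        have hvb : v ≤ 1 / b := by
          refine h3.trans ?_
          apply div_le_div_of_nonneg_left (by norm_num) (by linarith)
          calc (b : ℚ) = b ^ 1 := by ring
            _ ≤ b ^ (i + 1) := pow_le_pow_right₀ (by linarith) (by omega)
        have h5 : v' ≤ v / b := by
          rcases h3' with h3' | h3'
          · exact h3'
          · refine h3'.trans ?_
            rw [pow_two, div_eq_mul_one_div]
            exact mul_le_mul_of_nonneg_left hvb hv0.le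
        refine h5.trans ?_
        rw [pow_succ (b : ℚ) (i + 1), ← div_div]
        exact div_le_div_of_nonneg_right h3 (by linarith)
    · push Not at hvs
      exact ⟨v, h1.mono (by omega), h2, Or.inl hvs⟩

theorem pow_split {b : ℕ} (hb : 2 ≤ b) (T : ℕ) : ∀ E : ℕ, 2 ^ E ≤ b ^ T →
    ∃ P : List ℕ, P.length ≤ T ∧ (∀ p ∈ P, 1 ≤ p ∧ p ≤ b ^ 2) ∧ P.prod = 2 ^ E := by
  induction T with
  | zero =>
    intro E hE
    refine ⟨[], by simp, by simp, ?_⟩
    have : 1 ≤ 2 ^ E := Nat.one_le_two_pow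
    simp only [pow_zero] at hE
    simp only [List.prod_nil]
    omega
  | succ T ih =>
    intro E hE
    have hc1 : b < 2 ^ (Nat.log 2 b + 1) := Nat.lt_pow_succ_log_self (by norm_num) b
    have hc2 : 2 ^ Nat.log 2 b ≤ b := Nat.pow_log_le_self 2 (by omega)
    have hc3 : 2 ^ (Nat.log 2 b + 1) ≤ b ^ 2 := by
      rw [pow_succ]; nlinarith
    by_cases hle : E ≤ Nat.log 2 b + 1
    · refine ⟨[2 ^ E], by simp, ?_, by simp⟩
      intro p hp
      rw [List.mem_singleton] at hp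
      subst hp
      exact ⟨Nat.one_le_two_pow, (Nat.pow_le_pow_right (by norm_num) hle).trans hc3⟩
    · push Not at hle
      obtain ⟨P, h1, h2, h3⟩ := ih (E - (Nat.log 2 b + 1)) (by
        by_contra hcon
        push Not at hcon
        have : b ^ T * b < 2 ^ (E - (Nat.log 2 b + 1)) * 2 ^ (Nat.log 2 b + 1) :=
          Nat.mul_lt_mul_of_lt_of_le hcon hc1.le (by positivity)
        rw [← pow_add, Nat.sub_add_cancel hle.le, ← pow_succ] at this
        omega)
      refine ⟨2 ^ (Nat.log 2 b + 1) :: P, by simpa using h1, ?_, ?_⟩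
      · intro p hp
        rcases List.mem_cons.1 hp with rfl | hp
        · exact ⟨Nat.one_le_two_pow, hc3⟩
        · exact h2 p hp
      · rw [List.prod_cons, h3, ← pow_add]
        congr 1
        omega

theorem phase3 {s W l b : ℕ} (hU : Univ s W l) (hb : 1 ≤ b) (P : List ℕ) :
    (∀ p ∈ P, 1 ≤ p ∧ p ≤ W) → ∀ A : ℕ,
      UF (l * P.length) ((A : ℚ) / ((b : ℚ) * (P.prod : ℕ) * s) - ((A / P.prod : ℕ) : ℚ) / ((b : ℚ) * s)) := by
  have hs : (s : ℚ) ≠ 0 := by
    have := hU.1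
    positivity
  have hb0 : (b : ℚ) ≠ 0 := by positivity
  induction P with
  | nil =>
    intro _ A
    simpa using UF.zero _
  | cons p P ih =>
    intro hall A
    have hp := hall p (by simp)
    have hPpos : 0 < P.prod := by
      apply Nat.pos_of_ne_zero
      rw [Ne, List.prod_eq_zero_iff]
      intro h0
      have := (hall 0 (by simp [h0])).1
      omega
    have h1 := ih (fun x hx => hall x (by simp [hx])) (A / p)
    have h2 : UF l (((A % p : ℕ) : ℚ) / (((b * p * P.prod : ℕ) : ℚ) * s)) := by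
      apply hU.uf
      · exact (Nat.mod_lt A (by omega)).le.trans hp.2
      · exact Nat.succ_le_of_lt (by
          have := hp.1
          positivity)
    have h3 := h1.add h2
    have e : l * (p :: P).length = l * P.length + l := by
      rw [List.length_cons]; ring
    rw [e]
    convert h3 using 1
    rw [List.prod_cons, Nat.div_div_eq_div_mul]
    have hA : (A : ℚ) = ((A % p : ℕ) : ℚ) + p * ((A / p : ℕ) : ℚ) := by
      exact_mod_cast (Nat.mod_add_div A p).symm
    have hp0 : (p : ℚ) ≠ 0 := by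
      have := hp.1
      positivity
    have hP0 : (P.prod : ℚ) ≠ 0 := by positivity
    rw [hA]
    push_cast
    field_simp
    ring

/-- The reduction. -/
theorem reduction {s l b T J a : ℕ} (hb : 2 ≤ b) (hU : Univ s (b ^ 2) l) (hT : s ≤ b ^ T)
    (hJ : b ≤ 2 ^ 2 ^ J) (hab : a < b) :
    UF ((J + 1 + T) + l * (T + (J + 1 + T)) + l) ((a : ℚ) / b) := by
  have hs := hU.1
  have hb0 : (2 : ℚ) ≤ b := by exact_mod_cast hb
  have hs0 : (0 : ℚ) < s := by exact_mod_cast hs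
  obtain ⟨v, h1, _, h3⟩ := chain2 (s := s) hb hs hab hJ T
  have hvs : v < 1 / (s : ℚ) := by
    rcases h3 with h3 | h3
    · exact h3
    · refine lt_of_le_of_lt h3 ?_
      apply div_lt_div_of_pos_left (by norm_num) hs0
      have : s < b ^ (T + 1) := by
        calc s ≤ b ^ T := hT
          _ < b ^ (T + 1) := Nat.pow_lt_pow_right (by omega) (by omega)
      exact_mod_cast this
  obtain ⟨D, hD1, hD2, ⟨A, hA⟩, hUF⟩ := h1
  have hE : 2 ^ Nat.log 2 s ≤ b ^ T := (Nat.pow_log_le_self 2 (by omega)).trans hT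
  obtain ⟨P, hP1, hP2, hP3⟩ := pow_split hb T _ hE
  have hDpos : 0 < D.prod := by
    apply Nat.pos_of_ne_zero
    rw [Ne, List.prod_eq_zero_iff]
    intro h0
    have := (hD1 0 h0).1
    omega
  have hPD : (P ++ D).prod = 2 ^ Nat.log 2 s * D.prod := by rw [List.prod_append, hP3]
  have h4 := phase3 hU (b := b) (by omega) (P ++ D) (by
    intro p hp
    rcases List.mem_append.1 hp with hp | hp
    · exact hP2 p hp
    · exact hD1 p hp) (A * s)
  have hlt : A * s / (P ++ D).prod < b := by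
    rw [hPD, Nat.div_lt_iff_lt_mul (by positivity)]
    rw [hA, div_lt_div_iff₀ (by
      have : (0 : ℚ) < (D.prod : ℚ) := by exact_mod_cast hDpos
      have : (0 : ℚ) < b := by linarith
      positivity) hs0] at hvs
    have : ((A * s : ℕ) : ℚ) < ((b * (2 ^ Nat.log 2 s * D.prod) : ℕ) : ℚ) := by
      generalize D.prod = Dp at *
      push_cast
      linarith
    exact_mod_cast this
  have h5 : UF l (((A * s / (P ++ D).prod : ℕ) : ℚ) / ((b : ℚ) * s)) := by
    apply hU.uf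
    · have : b ≤ b ^ 2 := by nlinarith
      omega
    · omega
  have h6 := (hUF.add h4).add h5
  have h7 : (a : ℚ) / b - v + ((A * s : ℕ) / ((b : ℚ) * ((P ++ D).prod : ℕ) * s)
      - ((A * s / (P ++ D).prod : ℕ) : ℚ) / ((b : ℚ) * s))
      + ((A * s / (P ++ D).prod : ℕ) : ℚ) / ((b : ℚ) * s) = (a : ℚ) / b := by
    have : v = ((A * s : ℕ) : ℚ) / ((b : ℚ) * ((P ++ D).prod : ℕ) * s) := by
      rw [hA, hPD]
      have : (D.prod : ℚ) ≠ 0 := by positivity
      have : (b : ℚ) ≠ 0 := by positivity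
      push_cast
      field_simp
    rw [← this]
    ring
  rw [h7] at h6
  refine h6.mono ?_
  have : l * (P ++ D).length ≤ l * (T + (J + 1 + T)) := by
    apply Nat.mul_le_mul_left
    rw [List.length_append]
    omega
  omega

theorem Univ.mono {s W W' l : ℕ} (h : Univ s W l) (hW : W' ≤ W) : Univ s W' l :=
  ⟨h.1, fun G h1 h2 => h.2 G h1 (h2.trans hW)⟩

theorem final_of_univ
    (h : ∃ C l m₀ : ℕ, ∀ m : ℕ, m₀ ≤ m → ∃ s, Univ s (2 ^ m) l ∧ s ≤ 2 ^ (C * m * Nat.log 2 m)) :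
    ∃ C : ℝ, ∃ b₀ : ℕ, ∀ (a b : ℕ), b₀ ≤ b → 1 ≤ a → a < b →
      ∃ S : Finset ℕ, (∀ n ∈ S, 2 ≤ n) ∧ (S.card : ℝ) ≤ C * Real.log (Real.log (b : ℝ)) ∧
        ∑ n ∈ S, (1 : ℚ) / (n : ℚ) = (a : ℚ) / (b : ℚ) := by
  obtain ⟨C, l, m₀, h⟩ := h
  set K : ℕ := 2 + 4 * C + l * (8 * C + 2) + l with hK
  refine ⟨3 * K, max (2 ^ 16) (2 ^ m₀), ?_⟩
  intro a b hb _ hab
  have hb16 : 2 ^ 16 ≤ b := (le_max_left _ _).trans hb
  have hbm : 2 ^ m₀ ≤ b := (le_max_right _ _).trans hb
  have hb2 : 2 ≤ b := by omega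
  set n := Nat.log 2 b with hn
  have hn1 : 2 ^ n ≤ b := Nat.pow_log_le_self 2 (by omega)
  have hn2 : b < 2 ^ (n + 1) := Nat.lt_pow_succ_log_self (by norm_num) b
  have hn16 : 16 ≤ n := Nat.le_log_of_pow_le (by norm_num) hb16
  have hnm : m₀ ≤ n := Nat.le_log_of_pow_le (by norm_num) hbm
  obtain ⟨s, hU, hs⟩ := h (2 * (n + 1)) (by omega)
  set lam := Nat.log 2 (2 * (n + 1)) with hlam
  have hl1 : 2 ^ lam ≤ 2 * (n + 1) := Nat.pow_log_le_self 2 (by omega)
  have hl2 : 2 * (n + 1) < 2 ^ (lam + 1) := Nat.lt_pow_succ_log_self (by norm_num) _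
  have hlam1 : 1 ≤ lam := Nat.le_log_of_pow_le (by norm_num) (by omega)
  have hU2 : Univ s (b ^ 2) l := by
    apply hU.mono
    calc b ^ 2 ≤ (2 ^ (n + 1)) ^ 2 := Nat.pow_le_pow_left hn2.le 2
      _ = 2 ^ (2 * (n + 1)) := by rw [← pow_mul]; ring_nf
  have hT : s ≤ b ^ (4 * C * lam) := by
    calc s ≤ 2 ^ (C * (2 * (n + 1)) * lam) := hs
      _ ≤ 2 ^ (n * (4 * C * lam)) := by
          apply Nat.pow_le_pow_right (by norm_num)
          have : 2 * (n + 1) ≤ 4 * n := by omega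
          calc C * (2 * (n + 1)) * lam ≤ C * (4 * n) * lam := by gcongr
            _ = n * (4 * C * lam) := by ring
      _ = (2 ^ n) ^ (4 * C * lam) := by rw [pow_mul]
      _ ≤ b ^ (4 * C * lam) := Nat.pow_le_pow_left hn1 _
  have hJ : b ≤ 2 ^ 2 ^ lam := by
    refine hn2.le.trans (Nat.pow_le_pow_right (by norm_num) ?_)
    rw [pow_succ] at hl2
    omega
  have hred := reduction hb2 hU2 hT hJ hab
  have hab1 : (a : ℚ) / b < 1 := by
    rw [div_lt_one (by positivity)]; exact_mod_cast hab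
  obtain ⟨S, hS1, hS2, hS3⟩ := distinct hred hab1
  refine ⟨S, hS1, ?_, hS3⟩
  have hcard : S.card ≤ K * lam := by
    refine hS2.trans ?_
    have e : K * lam = 2 * lam + 4 * C * lam + l * (8 * C * lam + 2 * lam) + l * lam := by
      rw [hK]; ring
    rw [e]
    have h1 : l ≤ l * lam := Nat.le_mul_of_pos_right _ hlam1
    have h2 : l * (4 * C * lam + (lam + 1 + 4 * C * lam)) ≤ l * (8 * C * lam + 2 * lam) := by
      apply Nat.mul_le_mul_left
      have : 8 * C * lam = 4 * C * lam + 4 * C * lam := by ring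
      omega
    omega
  have hlog2 : (0.69 : ℝ) < Real.log 2 := by
    have := Real.log_two_gt_d9
    linarith
  have hlog2' : Real.log 2 < 0.7 := by
    have := Real.log_two_lt_d9
    linarith
  have hb0 : (0 : ℝ) < b := by positivity
  have hnlog : (n : ℝ) * Real.log 2 ≤ Real.log b := by
    rw [← Real.log_pow]
    apply Real.log_le_log (by positivity)
    exact_mod_cast hn1
  have hlogb : (8 : ℝ) ≤ Real.log b := by
    have : (16 : ℝ) ≤ n := by exact_mod_cast hn16
    nlinarith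
  have h2lam : ((2 : ℝ) ^ lam) ≤ 8 * Real.log b := by
    have h1 : ((2 : ℝ) ^ lam) ≤ 2 * (n + 1) := by exact_mod_cast hl1
    have h2 : (16 : ℝ) ≤ n := by exact_mod_cast hn16
    nlinarith
  have hlamlog : (lam : ℝ) * Real.log 2 ≤ 2 * Real.log (Real.log b) := by
    rw [← Real.log_pow]
    calc Real.log (2 ^ lam) ≤ Real.log (8 * Real.log b) :=
          Real.log_le_log (by positivity) h2lam
      _ = Real.log 8 + Real.log (Real.log b) := by
          rw [Real.log_mul (by norm_num) (by linarith)]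
      _ ≤ Real.log (Real.log b) + Real.log (Real.log b) := by
          gcongr
      _ = 2 * Real.log (Real.log b) := by ring
  have hlamle : (lam : ℝ) ≤ 3 * Real.log (Real.log b) := by
    have h0 : 0 ≤ Real.log (Real.log b) := Real.log_nonneg (by linarith)
    have h1 : (0 : ℝ) ≤ lam := by positivity
    nlinarith
  calc (S.card : ℝ) ≤ (K * lam : ℕ) := by exact_mod_cast hcard
    _ = K * (lam : ℝ) := by push_cast; ring
    _ ≤ K * (3 * Real.log (Real.log b)) := by gcongr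
    _ = 3 * K * Real.log (Real.log b) := by ring

end Crest.Agent.S0025
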