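import Crest.Agent.S0025.Coll

set_option autoImplicit false

namespace Crest.Agent.S0025

open Finset

/-- bad functions for the modulus `N`. -/
def badSet (k N : ℕ) (Q : Finset ℕ) : Finset (Fin k → ℕ) :=
  (Fintype.piFinset fun _ : Fin k => Q).filter
    (fun q => (∀ i, Nat.Coprime (q i) N) ∧ (4 ^ k) ^ 8 < (coll N (sprod q)) ^ 8 * N ^ 7)

/-- The Markov inequality for one modulus. -/
theorem badSet_card (k m M Λ : ℕ) (Q : Finset ℕ) (hQ : ∀ p ∈ Q, p.Prime ∧ p ≤ M)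
    (hkm : 2 * m ≤ k) (hk : 3 ^ 70 ≤ k) (hM : k ^ 64 ≤ M) (hΛ : M ≤ Λ * Q.card) (hΛk : Λ ^ 16 ≤ k)
    (N : ℕ) (hN1 : k < N) (hN2 : N ≤ 2 ^ m) :
    ((badSet k N Q).card : ℝ) ^ 64 * (N : ℝ) ^ 4 ≤ 3 ^ 64 * ((Q.card : ℝ) ^ k) ^ 64 := by
  have hk2 : 2 ≤ k := le_trans (by norm_num) hk
  have hM2 : 2 ≤ M := by
    calc 2 ≤ k := hk2
      _ ≤ k ^ 64 := Nat.le_self_pow (by norm_num) k
      _ ≤ M := hM
  have hΛ1 : 1 ≤ Λ := by
    rcases Nat.eq_zero_or_pos Λ with h0 | h0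
    · subst h0; rw [Nat.zero_mul] at hΛ; omega
    · exact h0
  have hΛle : Λ ≤ k := (Nat.le_self_pow (by norm_num) Λ).trans hΛk
  -- choice of d
  obtain ⟨d, hd1, hd2, hd3⟩ : ∃ d : ℕ, 1 ≤ d ∧ N ≤ M ^ d ∧ M ^ (d - 1) < N := by
    refine ⟨Nat.clog M N, ?_, ?_, ?_⟩
    · exact Nat.clog_pos (by omega) (by omega)
    · exact Nat.le_pow_clog (by omega) N
    · exact Nat.pow_pred_clog_lt_self (by omega) (by omega)
  have hkpow : (k ^ 64) ^ (d - 1) ≤ M ^ (d - 1) := Nat.pow_le_pow_left hM _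
  have hd2m : M ^ (d - 1) < 2 ^ m := lt_of_lt_of_le hd3 hN2
  have hdm : d - 1 < m := by
    have h1 : 2 ^ (d - 1) ≤ M ^ (d - 1) := Nat.pow_le_pow_left hM2 _
    exact (Nat.pow_lt_pow_iff_right (by norm_num)).1 (lt_of_le_of_lt h1 hd2m)
  have hdk : d ≤ k := by omega
  have h2 : (k + 1) ^ (2 * d - 2) * N ≤ 2 ^ k := by
    have h3 : (k + 1) ^ (2 * d - 2) ≤ 2 ^ m := by
      have e : 2 * d - 2 = 2 * (d - 1) := by omega
      rw [e, pow_mul]
      calc ((k + 1) ^ 2) ^ (d - 1) ≤ (k ^ 64) ^ (d - 1) := by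
            apply Nat.pow_le_pow_left
            calc (k + 1) ^ 2 ≤ (k ^ 2) ^ 2 := by
                  apply Nat.pow_le_pow_left
                  nlinarith
              _ = k ^ 4 := by rw [← pow_mul]
              _ ≤ k ^ 64 := Nat.pow_le_pow_right (by omega) (by norm_num)
        _ ≤ M ^ (d - 1) := hkpow
        _ ≤ 2 ^ m := hd2m.le
    calc (k + 1) ^ (2 * d - 2) * N ≤ 2 ^ m * 2 ^ m := Nat.mul_le_mul h3 hN2
      _ = 2 ^ (2 * m) := by rw [← pow_add]; congr 1; omega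
      _ ≤ 2 ^ k := Nat.pow_le_pow_right (by norm_num) hkm
  have havg := coll_avg k d N M Λ Q hQ (by omega) hd1 hd2 h2 hdk hΛ
  -- (Λ d)^(16 d) ≤ N
  set t := (Λ * d) ^ d with ht
  have ht16 : t ^ 16 ≤ N := by
    rcases Nat.lt_or_ge d 2 with hd' | hd'
    · have : d = 1 := by omega
      subst this
      rw [ht]
      simp only [mul_one, pow_one]
      omega
    · calc t ^ 16 = (Λ * d) ^ (d * 16) := by rw [ht, ← pow_mul]
        _ ≤ (k * k) ^ (d * 16) := Nat.pow_le_pow_left (Nat.mul_le_mul hΛle hdk) _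
        _ = k ^ (2 * (d * 16)) := by rw [← pow_two, ← pow_mul]
        _ ≤ k ^ (64 * (d - 1)) := Nat.pow_le_pow_right (by omega) (by omega)
        _ = (k ^ 64) ^ (d - 1) := by rw [pow_mul]
        _ ≤ M ^ (d - 1) := hkpow
        _ ≤ N := hd3.le
  have ht1 : 1 ≤ t := Nat.one_le_pow _ _ (by positivity)
  -- real number x = N^(1/16)
  obtain ⟨x, hx0, hx⟩ : ∃ x : ℝ, 0 < x ∧ x ^ 16 = (N : ℝ) := by
    have hN0 : (0 : ℝ) < N := by
      have : 0 < N := by omega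
      exact_mod_cast this
    refine ⟨(N : ℝ) ^ ((1 : ℝ) / 16), Real.rpow_pos_of_pos hN0 _, ?_⟩
    rw [← Real.rpow_natCast, ← Real.rpow_mul hN0.le]
    norm_num
  have htx : (t : ℝ) ≤ x := by
    have h3 : (t : ℝ) ^ 16 ≤ x ^ 16 := by rw [hx]; exact_mod_cast ht16
    exact le_of_pow_le_pow_left₀ (by norm_num) hx0.le h3
  -- lower bound of coll on the bad set
  have hlow : ∀ q ∈ badSet k N Q, (4 : ℝ) ^ k ≤ (coll N (sprod q) : ℝ) * x ^ 14 := by
    intro q hq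
    have h3 := (Finset.mem_filter.1 hq).2.2
    have h4 : ((4 : ℝ) ^ k) ^ 8 ≤ ((coll N (sprod q) : ℝ) * x ^ 14) ^ 8 := by
      have h5 : ((4 : ℝ) ^ k) ^ 8 ≤ (coll N (sprod q) : ℝ) ^ 8 * (N : ℝ) ^ 7 := by
        exact_mod_cast h3.le
      calc ((4 : ℝ) ^ k) ^ 8 ≤ (coll N (sprod q) : ℝ) ^ 8 * (N : ℝ) ^ 7 := h5
        _ = ((coll N (sprod q) : ℝ) * x ^ 14) ^ 8 := by
            rw [← hx]; ring
    exact le_of_pow_le_pow_left₀ (by norm_num) (by positivity) h4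
  have hsum : ((badSet k N Q).card : ℝ) * 4 ^ k
      ≤ (∑ q ∈ badSet k N Q, (coll N (sprod q) : ℝ)) * x ^ 14 := by
    rw [Finset.sum_mul]
    calc ((badSet k N Q).card : ℝ) * 4 ^ k = ∑ _q ∈ badSet k N Q, (4 : ℝ) ^ k := by
          rw [Finset.sum_const, nsmul_eq_mul]
      _ ≤ _ := Finset.sum_le_sum hlow
  have hsub : (∑ q ∈ badSet k N Q, (coll N (sprod q) : ℝ))
      ≤ ∑ q ∈ (Fintype.piFinset fun _ : Fin k => Q) with (∀ i, Nat.Coprime (q i) N),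
          (coll N (sprod q) : ℝ) := by
    apply Finset.sum_le_sum_of_subset_of_nonneg
    · intro q hq
      have h3 := Finset.mem_filter.1 hq
      exact Finset.mem_filter.2 ⟨h3.1, h3.2.1⟩
    · intro q _ _
      positivity
  have havg' : (∑ q ∈ (Fintype.piFinset fun _ : Fin k => Q) with (∀ i, Nat.Coprime (q i) N),
      (coll N (sprod q) : ℝ)) * N ≤ 4 ^ k * (Q.card : ℝ) ^ k * (2 * t + 1) := by
    exact_mod_cast havg
  set S : ℝ := ∑ q ∈ (Fintype.piFinset fun _ : Fin k => Q) with (∀ i, Nat.Coprime (q i) N),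
      (coll N (sprod q) : ℝ) with hS
  have h1t : (1 : ℝ) ≤ t := by exact_mod_cast ht1
  have hQk : (0 : ℝ) ≤ (Q.card : ℝ) ^ k := by positivity
  have h4k : (0 : ℝ) < (4 : ℝ) ^ k := by positivity
  have hBx : ((badSet k N Q).card : ℝ) * x ≤ 3 * (Q.card : ℝ) ^ k := by
    have h6 : S * x ^ 16 ≤ 4 ^ k * (Q.card : ℝ) ^ k * (3 * x) := by
      rw [hx]
      refine havg'.trans ?_
      apply mul_le_mul_of_nonneg_left _ (by positivity)
      linarith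
    have h7 : S * x ^ 15 ≤ 4 ^ k * (Q.card : ℝ) ^ k * 3 := by
      have e1 : S * x ^ 16 = (S * x ^ 15) * x := by ring
      have e2 : 4 ^ k * (Q.card : ℝ) ^ k * (3 * x) = (4 ^ k * (Q.card : ℝ) ^ k * 3) * x := by ring
      rw [e1, e2] at h6
      exact le_of_mul_le_mul_right h6 hx0
    have h8 : ((badSet k N Q).card : ℝ) * x * 4 ^ k ≤ 3 * (Q.card : ℝ) ^ k * 4 ^ k := by
      calc ((badSet k N Q).card : ℝ) * x * 4 ^ k = (((badSet k N Q).card : ℝ) * 4 ^ k) * x := by ring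
        _ ≤ ((∑ q ∈ badSet k N Q, (coll N (sprod q) : ℝ)) * x ^ 14) * x := by gcongr
        _ ≤ (S * x ^ 14) * x := by gcongr
        _ = S * x ^ 15 := by ring
        _ ≤ 4 ^ k * (Q.card : ℝ) ^ k * 3 := h7
        _ = 3 * (Q.card : ℝ) ^ k * 4 ^ k := by ring
    exact le_of_mul_le_mul_right h8 h4k
  calc ((badSet k N Q).card : ℝ) ^ 64 * (N : ℝ) ^ 4
      = (((badSet k N Q).card : ℝ) * x) ^ 64 := by rw [← hx]; ring
    _ ≤ (3 * (Q.card : ℝ) ^ k) ^ 64 := by gcongr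
    _ = 3 ^ 64 * ((Q.card : ℝ) ^ k) ^ 64 := by rw [mul_pow]

/-- tail sum -/
theorem tail_sum (k : ℕ) (hk : 1 ≤ k) (m : ℕ) :
    ∑ N ∈ Finset.Ioc k m, (1 : ℝ) / (N : ℝ) ^ 4 ≤ 1 / k := by
  have key : ∀ m : ℕ, k ≤ m → ∑ N ∈ Finset.Ioc k m, (1 : ℝ) / (N : ℝ) ^ 4 ≤ 1 / k - 1 / m := by
    intro m hm
    induction m, hm using Nat.le_induction with
    | base => simp
    | succ m hm ih =>
      rw [Finset.sum_Ioc_succ_top (by omega)]
      have hm0 : (1 : ℝ) ≤ m := by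
        have : 1 ≤ m := by omega
        exact_mod_cast this
      have h1 : (1 : ℝ) / ((m + 1 : ℕ) : ℝ) ^ 4 ≤ 1 / m - 1 / ((m + 1 : ℕ) : ℝ) := by
        have e : (1 : ℝ) / m - 1 / ((m + 1 : ℕ) : ℝ) = 1 / (m * (m + 1)) := by
          push_cast; field_simp; ring
        rw [e]
        apply div_le_div_of_nonneg_left (by norm_num) (by positivity)
        push_cast
        have h2 : (m : ℝ) * (m + 1) ≤ (m + 1) ^ 2 := by nlinarith
        have h3 : ((m : ℝ) + 1) ^ 2 ≤ (m + 1) ^ 4 := pow_le_pow_right₀ (by linarith) (by norm_num)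
        linarith
      linarith
  rcases Nat.lt_or_ge m k with h | h
  · rw [Finset.Ioc_eq_empty (by omega)]
    simp
  · have := key m h
    have h2 : (0 : ℝ) ≤ 1 / m := by positivity
    linarith

/-- Choice of the primes: for every modulus `N` at least one of the 64 groups is well distributed. -/
theorem exists_choice (k m M Λ : ℕ) (Q : Finset ℕ) (hQ : ∀ p ∈ Q, p.Prime ∧ p ≤ M)
    (hkm : 2 * m ≤ k) (hk : 3 ^ 70 ≤ k) (hM : k ^ 64 ≤ M) (hΛ : M ≤ Λ * Q.card) (hΛk : Λ ^ 16 ≤ k) :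
    ∃ q : Fin 64 → Fin k → ℕ, (∀ a i, q a i ∈ Q) ∧
      ∀ N : ℕ, k < N → N ≤ 2 ^ m → (∀ a i, Nat.Coprime (q a i) N) →
        ∃ a : Fin 64, (coll N (sprod (q a))) ^ 8 * N ^ 7 ≤ (4 ^ k) ^ 8 := by
  by_contra hcon
  push Not at hcon
  have hk1 : 1 ≤ k := le_trans (by norm_num) hk
  have hM1 : 1 ≤ M := le_trans (Nat.one_le_pow _ _ hk1) hM
  have hQpos : 0 < Q.card := by
    rcases Nat.eq_zero_or_pos Q.card with h0 | h0
    · rw [h0, Nat.mul_zero] at hΛ; omega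
    · exact h0
  have hsub : (Fintype.piFinset fun _ : Fin 64 => Fintype.piFinset fun _ : Fin k => Q)
      ⊆ (Finset.Ioc k (2 ^ m)).biUnion
        (fun N => Fintype.piFinset fun _ : Fin 64 => badSet k N Q) := by
    intro q hq
    have hq' : ∀ a i, q a i ∈ Q := by
      intro a i
      have := Fintype.mem_piFinset.1 hq a
      exact Fintype.mem_piFinset.1 this i
    obtain ⟨N, hN1, hN2, hN3, hN4⟩ := hcon q hq'
    rw [Finset.mem_biUnion]
    refine ⟨N, Finset.mem_Ioc.2 ⟨hN1, hN2⟩, ?_⟩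
    rw [Fintype.mem_piFinset]
    intro a
    rw [badSet, Finset.mem_filter]
    exact ⟨Fintype.mem_piFinset.2 (fun i => hq' a i), fun i => hN3 a i, hN4 a⟩
  have hcard := (Finset.card_le_card hsub).trans Finset.card_biUnion_le
  simp only [Fintype.card_piFinset_const] at hcard
  have hcard' : ((Q.card : ℝ) ^ k) ^ 64 ≤ ∑ N ∈ Finset.Ioc k (2 ^ m), ((badSet k N Q).card : ℝ) ^ 64 := by
    have h1 : ((Q.card ^ k) ^ 64 : ℕ) ≤ ∑ N ∈ Finset.Ioc k (2 ^ m), (badSet k N Q).card ^ 64 := by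
      simpa using hcard
    exact_mod_cast h1
  have hbound : ∀ N ∈ Finset.Ioc k (2 ^ m), ((badSet k N Q).card : ℝ) ^ 64
      ≤ 3 ^ 64 * ((Q.card : ℝ) ^ k) ^ 64 * (1 / (N : ℝ) ^ 4) := by
    intro N hN
    rw [Finset.mem_Ioc] at hN
    have h1 := badSet_card k m M Λ Q hQ hkm hk hM hΛ hΛk N hN.1 hN.2
    have hN0 : (0 : ℝ) < (N : ℝ) := by
      have : 0 < N := by omega
      exact_mod_cast this
    rw [mul_one_div, le_div_iff₀ (by positivity)]
    exact h1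
  have h2 := hcard'.trans (Finset.sum_le_sum hbound)
  rw [← Finset.mul_sum] at h2
  have h3 := tail_sum k hk1 (2 ^ m)
  have hQR : (0 : ℝ) < ((Q.card : ℝ) ^ k) ^ 64 := by
    have : (0 : ℝ) < Q.card := by exact_mod_cast hQpos
    positivity
  have hk0 : (3 : ℝ) ^ 70 ≤ k := by exact_mod_cast hk
  have hkpos : (0 : ℝ) < k := lt_of_lt_of_le (by norm_num) hk0
  have h4 : 3 ^ 64 * ((Q.card : ℝ) ^ k) ^ 64 * ∑ N ∈ Finset.Ioc k (2 ^ m), (1 / (N : ℝ) ^ 4)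
      ≤ 3 ^ 64 * ((Q.card : ℝ) ^ k) ^ 64 * (1 / k) := by gcongr
  have h5 : 3 ^ 64 * ((Q.card : ℝ) ^ k) ^ 64 * (1 / k) < ((Q.card : ℝ) ^ k) ^ 64 := by
    rw [mul_one_div, div_lt_iff₀ hkpos]
    have h6 : (3 : ℝ) ^ 64 < k := lt_of_lt_of_le (by norm_num) hk0
    nlinarith
  linarith

end Crest.Agent.S0025
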