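import Crest.Agent.S0025.Basic

set_option autoImplicit false

namespace Crest.Agent.S0025

open Finset

/-- one pair `(I, J)` with `|I \ J| ≥ d`. -/
theorem coll_pair (n d N M Λ : ℕ) (Q : Finset ℕ) (hQ : ∀ p ∈ Q, p.Prime ∧ p ≤ M)
    (hNd : N ≤ M ^ d) (hΛ : M ≤ Λ * Q.card)
    (I J : Finset (Fin n)) (hIJ : d ≤ (I \ J).card) :
    N * ((Fintype.piFinset fun _ : Fin n => Q).filter
      (fun q => (∀ i, Nat.Coprime (q i) N) ∧ sprod q I ≡ sprod q J [MOD N])).card
      ≤ Q.card ^ n * (2 * (Λ * d) ^ d) := by
  classical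
  obtain ⟨T, hT, hTc⟩ := Finset.exists_subset_card_eq hIJ
  have hTI : T ⊆ I := fun i hi => (Finset.mem_sdiff.mp (hT hi)).1
  have hTJ : ∀ i ∈ T, i ∉ J := fun i hi => (Finset.mem_sdiff.mp (hT hi)).2
  set S := (Fintype.piFinset fun _ : Fin n => Q).filter
      (fun q => (∀ i, Nat.Coprime (q i) N) ∧ sprod q I ≡ sprod q J [MOD N]) with hS
  set P := (Fintype.piFinset fun i : Fin n => if i ∈ T then ({0} : Finset ℕ) else Q) with hP
  have hPc : P.card = Q.card ^ (n - d) := by
    rw [hP, Fintype.card_piFinset]
    have : ∀ i : Fin n, (if i ∈ T then ({0} : Finset ℕ) else Q).card = if i ∈ T then 1 else Q.card := by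
      intro i; split_ifs <;> simp
    simp only [this]
    rw [Finset.prod_ite]
    simp only [Finset.prod_const_one, one_mul, Finset.prod_const]
    congr 1
    have h := Finset.card_compl T
    rw [Fintype.card_fin, hTc] at h
    rw [← h]
    congr 1
    ext i; simp
  have key : S.card ≤ d ^ d * (P ×ˢ Finset.range (M ^ d / N + 1)).card := by
    apply Finset.card_le_mul_card_image_of_maps_to
      (f := fun q : Fin n → ℕ => ((fun i => if i ∈ T then 0 else q i), (∏ i ∈ T, q i) / N))
    · intro q hq
      rw [hS, Finset.mem_filter, Fintype.mem_piFinset] at hq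
      obtain ⟨hqQ, hqc, hqe⟩ := hq
      rw [Finset.mem_product]
      constructor
      · rw [hP, Fintype.mem_piFinset]
        intro i
        by_cases hi : i ∈ T
        · simp [hi]
        · simp [hi, hqQ i]
      · simp only [Finset.mem_range]
        have : ∏ i ∈ T, q i ≤ M ^ d := by
          rw [← hTc, ← Finset.prod_const]
          exact Finset.prod_le_prod' (fun i _ => (hQ _ (hqQ i)).2)
        exact Nat.lt_succ_of_le (Nat.div_le_div_right this)
    · rintro ⟨g, w⟩ _
      rcases Finset.eq_empty_or_nonempty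
        (S.filter (fun q : Fin n → ℕ => ((fun i => if i ∈ T then 0 else q i), (∏ i ∈ T, q i) / N) = (g, w))) with h0 | ⟨q₁, hq₁⟩
      · rw [h0]; simp
      · rw [Finset.mem_filter, Prod.mk.injEq, hS, Finset.mem_filter, Fintype.mem_piFinset] at hq₁
        obtain ⟨⟨hq1Q, hq1c, hq1e⟩, hq1g, hq1w⟩ := hq₁
        have hsub : (S.filter (fun q : Fin n → ℕ => ((fun i => if i ∈ T then 0 else q i), (∏ i ∈ T, q i) / N) = (g, w)))
            ⊆ Fintype.piFinset fun i : Fin n => if i ∈ T then T.image q₁ else {q₁ i} := by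
          intro q hq
          rw [Finset.mem_filter, Prod.mk.injEq, hS, Finset.mem_filter, Fintype.mem_piFinset] at hq
          obtain ⟨⟨hqQ, hqc, hqe⟩, hqg, hqw⟩ := hq
          have hout : ∀ i, i ∉ T → q i = q₁ i := by
            intro i hi
            have h1 := congrFun hq1g i
            have h2 := congrFun hqg i
            simp only [hi, if_false] at h1 h2
            rw [h1, h2]
          -- products
          have hJ : sprod q J = sprod q₁ J := by
            unfold sprod
            exact Finset.prod_congr rfl (fun i hi => hout i (fun h => hTJ i h hi))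
          have hI : sprod q (I \ T) = sprod q₁ (I \ T) := by
            unfold sprod
            exact Finset.prod_congr rfl (fun i hi => hout i (Finset.mem_sdiff.mp hi).2)
          have hsI : ∀ q' : Fin n → ℕ, sprod q' I = sprod q' (I \ T) * ∏ i ∈ T, q' i := by
            intro q'
            unfold sprod
            exact (Finset.prod_sdiff hTI).symm
          have hcop : Nat.Coprime N (sprod q₁ (I \ T)) := by
            unfold sprod
            exact (Nat.Coprime.prod_left (fun i _ => hq1c i)).symm
          have hmod : (∏ i ∈ T, q i) ≡ (∏ i ∈ T, q₁ i) [MOD N] := by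
            apply Nat.ModEq.cancel_left_of_coprime (c := sprod q₁ (I \ T)) hcop
            have e1 : sprod q₁ (I \ T) * ∏ i ∈ T, q i = sprod q I := by rw [hsI q, hI]
            have e2 : sprod q₁ (I \ T) * ∏ i ∈ T, q₁ i = sprod q₁ I := by rw [hsI q₁]
            rw [e1, e2]
            exact hqe.trans (hJ ▸ hq1e.symm)
          have hv : (∏ i ∈ T, q i) = ∏ i ∈ T, q₁ i := by
            rw [← Nat.div_add_mod (∏ i ∈ T, q i) N, ← Nat.div_add_mod (∏ i ∈ T, q₁ i) N, hqw, hq1w]
            rw [hmod]
          rw [Fintype.mem_piFinset]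
          intro i
          by_cases hi : i ∈ T
          · simp only [hi, if_true, Finset.mem_image]
            have hd : q i ∣ ∏ j ∈ T, q₁ j := by
              rw [← hv]; exact Finset.dvd_prod_of_mem _ hi
            obtain ⟨j, hj, hjd⟩ := ((hQ _ (hqQ i)).1.prime.dvd_finsetProd_iff _).mp hd
            exact ⟨j, hj, ((Nat.prime_dvd_prime_iff_eq (hQ _ (hqQ i)).1 (hQ _ (hq1Q j)).1).mp hjd).symm⟩
          · simp [hi, hout i hi]
        refine (Finset.card_le_card hsub).trans ?_
        rw [Fintype.card_piFinset]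
        have : ∀ i : Fin n, (if i ∈ T then T.image q₁ else ({q₁ i} : Finset ℕ)).card
            ≤ if i ∈ T then d else 1 := by
          intro i
          split_ifs with h
          · rw [← hTc]; exact Finset.card_image_le
          · simp
        refine (Finset.prod_le_prod' (fun i _ => this i)).trans ?_
        rw [Finset.prod_ite]
        simp only [Finset.prod_const_one, mul_one, Finset.prod_const]
        have : (Finset.univ.filter (fun i : Fin n => i ∈ T)) = T := by ext i; simp
        rw [this, hTc]
  have hdn : d ≤ n := by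
    rw [← hTc]
    exact (Finset.card_le_univ T).trans (by simp)
  rw [Finset.card_product, hPc, Finset.card_range] at key
  calc N * S.card ≤ N * (d ^ d * (Q.card ^ (n - d) * (M ^ d / N + 1))) := Nat.mul_le_mul_left _ key
    _ = d ^ d * Q.card ^ (n - d) * (N * (M ^ d / N) + N) := by ring
    _ ≤ d ^ d * Q.card ^ (n - d) * (M ^ d + M ^ d) := by
        apply Nat.mul_le_mul_left
        exact Nat.add_le_add (Nat.mul_div_le _ _) hNd
    _ = 2 * d ^ d * Q.card ^ (n - d) * M ^ d := by ring
    _ ≤ 2 * d ^ d * Q.card ^ (n - d) * (Λ * Q.card) ^ d :=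
        Nat.mul_le_mul_left _ (Nat.pow_le_pow_left hΛ d)
    _ = (Q.card ^ (n - d) * Q.card ^ d) * (2 * (Λ * d) ^ d) := by rw [mul_pow, mul_pow]; ring
    _ = Q.card ^ n * (2 * (Λ * d) ^ d) := by rw [← pow_add, Nat.sub_add_cancel hdn]

theorem coll_small_sets (n k : ℕ) :
    ((Finset.univ : Finset (Finset (Fin n))).filter (fun A => A.card ≤ k)).card ≤ (n + 1) ^ k := by
  classical
  have h : (Finset.univ.filter (fun A : Finset (Fin n) => A.card ≤ k)) ⊆
      (Finset.univ : Finset (Fin k → Option (Fin n))).image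
        (fun f => Finset.univ.filter (fun a => ∃ i, f i = some a)) := by
    intro A hA
    rw [Finset.mem_filter] at hA
    rw [Finset.mem_image]
    refine ⟨fun i => A.toList[(i : ℕ)]?, Finset.mem_univ _, ?_⟩
    ext a
    simp only [Finset.mem_filter, Finset.mem_univ, true_and]
    constructor
    · rintro ⟨i, hi⟩
      exact Finset.mem_toList.mp (List.mem_of_getElem? hi)
    · intro ha
      obtain ⟨i, hi⟩ := List.mem_iff_getElem?.mp (Finset.mem_toList.mpr ha)
      have hlt : i < A.toList.length := by
        by_contra hcon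
        rw [List.getElem?_eq_none (not_lt.mp hcon)] at hi
        simp at hi
      rw [Finset.length_toList] at hlt
      exact ⟨⟨i, lt_of_lt_of_le hlt hA.2⟩, hi⟩
  refine (Finset.card_le_card h).trans (Finset.card_image_le.trans ?_)
  simp [Fintype.card_option]

theorem coll_small_pairs (n d : ℕ) (hd : 1 ≤ d) :
    ((Finset.univ : Finset (Finset (Fin n) × Finset (Fin n))).filter
      (fun p => (p.1 \ p.2).card < d ∧ (p.2 \ p.1).card < d)).card ≤ 2 ^ n * (n + 1) ^ (2 * d - 2) := by
  classical
  set U := ((Finset.univ : Finset (Finset (Fin n))).filter (fun A => A.card ≤ d - 1)) with hU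
  have h1 : ((Finset.univ : Finset (Finset (Fin n) × Finset (Fin n))).filter
      (fun p => (p.1 \ p.2).card < d ∧ (p.2 \ p.1).card < d)).card ≤
      ((Finset.univ : Finset (Finset (Fin n))) ×ˢ (U ×ˢ U)).card := by
    apply Finset.card_le_card_of_injOn (fun p => (p.1, p.1 \ p.2, p.2 \ p.1))
    · intro p hp
      simp only [Finset.coe_filter, Finset.mem_univ, true_and, Set.mem_ofPred_eq] at hp
      simp only [Finset.coe_product, Set.mem_prod, Finset.coe_univ, Set.mem_univ, true_and, hU,
        Finset.coe_filter, Finset.mem_univ, Set.mem_ofPred_eq]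
      omega
    · intro p _ p' _ h
      simp only [Prod.mk.injEq] at h
      obtain ⟨h1, h2, h3⟩ := h
      apply Prod.ext h1
      have e : ∀ r : Finset (Fin n) × Finset (Fin n), r.2 = (r.1 \ (r.1 \ r.2)) ∪ (r.2 \ r.1) := by
        intro r
        ext x
        simp only [Finset.mem_union, Finset.mem_sdiff]
        tauto
      rw [e p, e p', h2, h3, h1]
  refine h1.trans ?_
  rw [Finset.card_product, Finset.card_product, Finset.card_univ, Fintype.card_finset, Fintype.card_fin]
  have h2 := coll_small_sets n (d - 1)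
  have h3 : 2 * d - 2 = (d - 1) + (d - 1) := by omega
  rw [h3, pow_add]
  exact Nat.mul_le_mul_left _ (Nat.mul_le_mul h2 h2)

/-- Average number of collisions of the subset products of random primes (Claim 1). -/
theorem coll_avg (n d N M Λ : ℕ) (Q : Finset ℕ) (hQ : ∀ p ∈ Q, p.Prime ∧ p ≤ M)
    (hN : 0 < N) (hd : 1 ≤ d) (hNd : N ≤ M ^ d) (h2 : (n + 1) ^ (2 * d - 2) * N ≤ 2 ^ n)
    (hdn : d ≤ n) (hΛ : M ≤ Λ * Q.card) :
    (∑ q ∈ (Fintype.piFinset fun _ : Fin n => Q) with (∀ i, Nat.Coprime (q i) N),
      coll N (sprod q)) * N ≤ 4 ^ n * Q.card ^ n * (2 * (Λ * d) ^ d + 1) := by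
  classical
  have hswap : (∑ q ∈ (Fintype.piFinset fun _ : Fin n => Q) with (∀ i, Nat.Coprime (q i) N),
      coll N (sprod q)) = ∑ p : Finset (Fin n) × Finset (Fin n),
        ((Fintype.piFinset fun _ : Fin n => Q).filter
          (fun q => (∀ i, Nat.Coprime (q i) N) ∧ sprod q p.1 ≡ sprod q p.2 [MOD N])).card := by
    unfold coll
    simp only [Finset.card_filter]
    rw [Finset.sum_comm]
    apply Finset.sum_congr rfl
    intro p _
    rw [Finset.sum_filter]
    apply Finset.sum_congr rfl
    intro q _
    by_cases h : (∀ i, Nat.Coprime (q i) N)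
    · rw [if_pos h]
      by_cases h' : sprod q p.1 ≡ sprod q p.2 [MOD N]
      · rw [if_pos h', if_pos ⟨h, h'⟩]
      · rw [if_neg h', if_neg (fun hh => h' hh.2)]
    · rw [if_neg h, if_neg (fun hh => h hh.1)]
  rw [hswap, Finset.sum_mul]
  have hbound : ∀ p : Finset (Fin n) × Finset (Fin n),
      ((Fintype.piFinset fun _ : Fin n => Q).filter
          (fun q => (∀ i, Nat.Coprime (q i) N) ∧ sprod q p.1 ≡ sprod q p.2 [MOD N])).card * N
        ≤ Q.card ^ n * (2 * (Λ * d) ^ d) +
          if ((p.1 \ p.2).card < d ∧ (p.2 \ p.1).card < d) then N * Q.card ^ n else 0 := by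
    rintro ⟨I, J⟩
    simp only
    by_cases h1 : d ≤ (I \ J).card
    · rw [mul_comm]
      exact (coll_pair n d N M Λ Q hQ hNd hΛ I J h1).trans (Nat.le_add_right _ _)
    · by_cases h3 : d ≤ (J \ I).card
      · rw [mul_comm]
        have := coll_pair n d N M Λ Q hQ hNd hΛ J I h3
        refine le_trans ?_ (this.trans (Nat.le_add_right _ _))
        apply Nat.mul_le_mul_left
        apply Finset.card_le_card
        intro q hq
        rw [Finset.mem_filter] at hq ⊢
        exact ⟨hq.1, hq.2.1, hq.2.2.symm⟩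
      · rw [if_pos ⟨not_le.mp h1, not_le.mp h3⟩, mul_comm]
        refine le_trans ?_ (Nat.le_add_left _ _)
        apply Nat.mul_le_mul_left
        refine (Finset.card_filter_le _ _).trans ?_
        rw [Fintype.card_piFinset]
        simp
  refine (Finset.sum_le_sum (fun p _ => hbound p)).trans ?_
  rw [Finset.sum_add_distrib, Finset.sum_const, Finset.card_univ, Fintype.card_prod,
    Fintype.card_finset, Fintype.card_fin, ← Finset.sum_filter, Finset.sum_const, smul_eq_mul, smul_eq_mul]
  have h4 : 2 ^ n * 2 ^ n = 4 ^ n := by rw [← mul_pow]; norm_num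
  have hs := coll_small_pairs n d hd
  have h5 : ((Finset.univ : Finset (Finset (Fin n) × Finset (Fin n))).filter
      (fun p => (p.1 \ p.2).card < d ∧ (p.2 \ p.1).card < d)).card * (N * Q.card ^ n) ≤ 4 ^ n * Q.card ^ n := by
    calc _ ≤ (2 ^ n * (n + 1) ^ (2 * d - 2)) * (N * Q.card ^ n) := Nat.mul_le_mul_right _ hs
      _ = 2 ^ n * ((n + 1) ^ (2 * d - 2) * N) * Q.card ^ n := by ring
      _ ≤ 2 ^ n * 2 ^ n * Q.card ^ n := by
          apply Nat.mul_le_mul_right
          exact Nat.mul_le_mul_left _ h2
      _ = 4 ^ n * Q.card ^ n := by rw [h4]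
  rw [h4]
  calc _ ≤ 4 ^ n * (Q.card ^ n * (2 * (Λ * d) ^ d)) + 4 ^ n * Q.card ^ n := Nat.add_le_add_left h5 _
    _ = _ := by ring

end Crest.Agent.S0025
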