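import Crest.Agent.S0025.Basic

set_option autoImplicit false

namespace Crest.Agent.S0025

open Finset

/-! ### orthogonality and Parseval for a primitive character -/

/-- orthogonality for a primitive additive character -/
theorem four_sum_prim (d : ℕ) [NeZero d] (ψ : AddChar (ZMod d) ℂ) (hψ : ψ.IsPrimitive)
    (s : ZMod d) : ∑ r : ZMod d, ψ (r * s) = if s = 0 then (d : ℂ) else 0 := by
  by_cases hs : s = 0
  · subst hs
    simp [ZMod.card]
  · rw [if_neg hs]
    have h := hψ hs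
    have h1 : ∑ r : ZMod d, (ψ.mulShift s) r = 0 := AddChar.sum_eq_zero_of_ne_one h
    rw [← h1]
    refine Finset.sum_congr rfl fun r _ => ?_
    rw [AddChar.mulShift_apply, mul_comm]

/-- Parseval -/
theorem four_parseval_prim (d : ℕ) [NeZero d] (ψ : AddChar (ZMod d) ℂ) (hψ : ψ.IsPrimitive)
    (B : ZMod d → ℝ) :
    ∑ r : ZMod d, ‖∑ s, (B s : ℂ) * ψ (r * s)‖ ^ 2 = d * ∑ s, B s ^ 2 := by
  have h1 : ∀ r : ZMod d, ((‖∑ s, (B s : ℂ) * ψ (r * s)‖ ^ 2 : ℝ) : ℂ) =
      ∑ s, ∑ t, (B s : ℂ) * B t * ψ (r * (s - t)) := by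
    intro r
    rw [Complex.ofReal_pow, ← Complex.mul_conj', map_sum, Finset.sum_mul_sum]
    refine Finset.sum_congr rfl fun s _ => Finset.sum_congr rfl fun t _ => ?_
    rw [map_mul (starRingEnd ℂ), Complex.conj_ofReal, ← AddChar.map_neg_eq_conj, mul_sub,
      sub_eq_add_neg, AddChar.map_add_eq_mul]
    ring
  have h2 : ((∑ r : ZMod d, ‖∑ s, (B s : ℂ) * ψ (r * s)‖ ^ 2 : ℝ) : ℂ) =
      ((d * ∑ s, B s ^ 2 : ℝ) : ℂ) := by
    rw [Complex.ofReal_sum]
    rw [Finset.sum_congr rfl fun r _ => h1 r]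
    rw [Finset.sum_comm]
    push_cast
    rw [Finset.mul_sum]
    refine Finset.sum_congr rfl fun s _ => ?_
    rw [Finset.sum_comm]
    have h3 : ∀ t : ZMod d, ∑ r : ZMod d, (B s : ℂ) * B t * ψ (r * (s - t)) =
        if s = t then (d : ℂ) * (B s : ℂ) ^ 2 else 0 := by
      intro t
      rw [← Finset.mul_sum, four_sum_prim d ψ hψ]
      by_cases h : s = t
      · subst h
        simp
        ring
      · rw [if_neg (sub_ne_zero.2 h), if_neg h, mul_zero]
    rw [Finset.sum_congr rfl fun t _ => h3 t, Finset.sum_ite_eq, if_pos (Finset.mem_univ _)]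
  exact_mod_cast h2

/-- bilinear estimate -/
theorem four_bilin_prim (d : ℕ) [NeZero d] (ψ : AddChar (ZMod d) ℂ) (hψ : ψ.IsPrimitive)
    (A B : ZMod d → ℝ) :
    ‖∑ r, ∑ s, (A r : ℂ) * B s * ψ (r * s)‖ ^ 2 ≤ d * (∑ r, A r ^ 2) * ∑ s, B s ^ 2 := by
  have h1 : ‖∑ r, ∑ s, (A r : ℂ) * B s * ψ (r * s)‖ ≤
      ∑ r, |A r| * ‖∑ s, (B s : ℂ) * ψ (r * s)‖ := by
    refine (norm_sum_le _ _).trans (Finset.sum_le_sum fun r _ => ?_)
    have : ∑ s, (A r : ℂ) * B s * ψ (r * s) = (A r : ℂ) * ∑ s, (B s : ℂ) * ψ (r * s) := by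
      rw [Finset.mul_sum]
      exact Finset.sum_congr rfl fun s _ => by ring
    rw [this, norm_mul, Complex.norm_real, Real.norm_eq_abs]
  have h2 : (∑ r, |A r| * ‖∑ s, (B s : ℂ) * ψ (r * s)‖) ^ 2 ≤
      (∑ r, |A r| ^ 2) * ∑ r, ‖∑ s, (B s : ℂ) * ψ (r * s)‖ ^ 2 :=
    Finset.sum_mul_sq_le_sq_mul_sq _ _ _
  calc ‖∑ r, ∑ s, (A r : ℂ) * B s * ψ (r * s)‖ ^ 2
      ≤ (∑ r, |A r| * ‖∑ s, (B s : ℂ) * ψ (r * s)‖) ^ 2 :=
        pow_le_pow_left₀ (norm_nonneg _) h1 2
    _ ≤ (∑ r, |A r| ^ 2) * ∑ r, ‖∑ s, (B s : ℂ) * ψ (r * s)‖ ^ 2 := h2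
    _ = d * (∑ r, A r ^ 2) * ∑ s, B s ^ 2 := by
        rw [four_parseval_prim d ψ hψ]
        simp only [sq_abs]
        ring

/-! ### `ee` -/

theorem ee_eq_std (N : ℕ) [NeZero N] (z : ℕ) : ee N z = ZMod.stdAddChar (z : ZMod N) := by
  have h := ZMod.stdAddChar_coe (N := N) (z : ℤ)
  push_cast at h
  rw [ee, h]
  congr 1
  ring

theorem ee_add (N a b : ℕ) : ee N (a + b) = ee N a * ee N b := by
  unfold ee
  rw [← Complex.exp_add]
  congr 1
  push_cast
  ring

theorem ee_zero (N : ℕ) : ee N 0 = 1 := by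
  unfold ee
  simp

theorem ee_mul_eq_pow (N h z : ℕ) : ee N (h * z) = ee N z ^ h := by
  induction h with
  | zero => simp [ee_zero]
  | succ h ih => rw [Nat.succ_mul, ee_add, ih, pow_succ]

theorem ee_self_mul (N : ℕ) (hN : 0 < N) (z : ℕ) : ee N (N * z) = 1 := by
  have : NeZero N := ⟨hN.ne'⟩
  rw [ee_eq_std]
  push_cast
  rw [ZMod.natCast_self, zero_mul, AddChar.map_zero_eq_one]

theorem ee_eq_one_iff (N : ℕ) (hN : 0 < N) (z : ℕ) : ee N z = 1 ↔ N ∣ z := by
  have : NeZero N := ⟨hN.ne'⟩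
  rw [ee_eq_std, ← (ZMod.natCast_eq_zero_iff z N)]
  constructor
  · intro h
    apply ZMod.injective_stdAddChar
    rw [h, AddChar.map_zero_eq_one]
  · intro h
    rw [h, AddChar.map_zero_eq_one]

theorem ee_sum_range (N : ℕ) (hN : 0 < N) (z : ℕ) :
    ∑ h ∈ range N, ee N (h * z) = if N ∣ z then (N : ℂ) else 0 := by
  split_ifs with hz
  · have : ∀ h ∈ range N, ee N (h * z) = 1 := fun h _ =>
      (ee_eq_one_iff N hN _).2 (hz.mul_left h)
    rw [Finset.sum_congr rfl this]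
    simp
  · have h1 : ee N z ≠ 1 := fun h => hz ((ee_eq_one_iff N hN z).1 h)
    have h2 : (∑ h ∈ range N, ee N z ^ h) * (ee N z - 1) = ee N z ^ N - 1 := geom_sum_mul _ _
    have h3 : ee N z ^ N = 1 := by
      rw [← ee_mul_eq_pow, ee_self_mul N hN]
    rw [h3, sub_self] at h2
    rw [Finset.sum_congr rfl fun h _ => ee_mul_eq_pow N h z]
    exact (mul_eq_zero.1 h2).resolve_right (sub_ne_zero.2 h1)

theorem ee_reduce (G g G' h' : ℕ) (hg : 0 < g) (hG : G = g * G') (z : ℕ) :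
    ee G (g * h' * z) = ee G' (h' * z) := by
  unfold ee
  congr 2
  rw [hG]
  have hg0 : (g : ℂ) ≠ 0 := by exact_mod_cast hg.ne'
  push_cast
  rw [mul_assoc (g : ℂ), mul_div_mul_left _ _ hg0]

/-! ### collisions -/

theorem coll_eq {α : Type} [Fintype α] (N : ℕ) [NeZero N] (x : α → ℕ) :
    coll N x = ∑ r : ZMod N, (univ.filter fun a => (x a : ZMod N) = r).card ^ 2 := by
  classical
  unfold coll
  have h1 := Finset.card_eq_sum_card_fiberwise
    (s := univ.filter fun p : α × α => x p.1 ≡ x p.2 [MOD N])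
    (t := (univ : Finset (ZMod N))) (f := fun p : α × α => (x p.1 : ZMod N))
    (fun _ _ => Finset.mem_coe.2 (Finset.mem_univ _))
  rw [h1]
  refine Finset.sum_congr rfl fun r _ => ?_
  rw [pow_two, ← Finset.card_product]
  congr 1
  ext p
  simp only [mem_filter, mem_univ, true_and, mem_product]
  constructor
  · rintro ⟨h2, h3⟩
    refine ⟨h3, ?_⟩
    rw [← h3]
    exact ((ZMod.natCast_eq_natCast_iff _ _ _).2 h2).symm
  · rintro ⟨h2, h3⟩
    exact ⟨(ZMod.natCast_eq_natCast_iff _ _ _).1 (h2.trans h3.symm), h2⟩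

/-- Bilinear bound (Cauchy-Schwarz + orthogonality). -/
theorem bilin {α β : Type} [Fintype α] [Fintype β] (N : ℕ) (hN : 0 < N) (x : α → ℕ) (y : β → ℕ)
    (h : ℕ) (hh : Nat.Coprime h N) :
    ‖∑ a, ∑ b, ee N (h * (x a * y b))‖ ^ 2 ≤ (N : ℝ) * (coll N x : ℝ) * (coll N y : ℝ) := by
  classical
  have : NeZero N := ⟨hN.ne'⟩
  let ψ : AddChar (ZMod N) ℂ := (ZMod.stdAddChar (N := N)).mulShift (h : ZMod N)
  have hψ : ψ.IsPrimitive := by
    intro a ha
    rw [AddChar.mulShift_mulShift]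
    apply ZMod.isPrimitive_stdAddChar
    have hu : IsUnit (h : ZMod N) := (ZMod.isUnit_iff_coprime _ _).2 hh
    intro h0
    exact ha (hu.mul_right_eq_zero.1 h0)
  have key := four_bilin_prim N ψ hψ
    (fun r => ((univ.filter fun a => (x a : ZMod N) = r).card : ℝ))
    (fun s => ((univ.filter fun b => (y b : ZMod N) = s).card : ℝ))
  rw [coll_eq, coll_eq]
  push_cast
  refine le_trans (le_of_eq ?_) key
  congr 2
  -- regroup the sum
  have e1 : ∀ a b, ee N (h * (x a * y b)) = ψ ((x a : ZMod N) * (y b : ZMod N)) := by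
    intro a b
    rw [ee_eq_std, AddChar.mulShift_apply]
    push_cast
    rfl
  have e2 : ∀ a, ∑ b, ee N (h * (x a * y b)) = ∑ s : ZMod N,
      ((univ.filter fun b => (y b : ZMod N) = s).card : ℂ) * ψ ((x a : ZMod N) * s) := by
    intro a
    rw [← Finset.sum_fiberwise univ (fun b => (y b : ZMod N))]
    refine Finset.sum_congr rfl fun s _ => ?_
    rw [← nsmul_eq_mul, ← Finset.sum_const]
    refine Finset.sum_congr rfl fun b hb => ?_
    rw [e1, (Finset.mem_filter.1 hb).2]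
  rw [Finset.sum_congr rfl fun a _ => e2 a]
  rw [← Finset.sum_fiberwise univ (fun a => (x a : ZMod N))]
  refine Finset.sum_congr rfl fun r _ => ?_
  have e3 : ∀ a ∈ univ.filter (fun a => (x a : ZMod N) = r), ∑ s : ZMod N,
      ((univ.filter fun b => (y b : ZMod N) = s).card : ℂ) * ψ ((x a : ZMod N) * s) =
      ∑ s : ZMod N, ((univ.filter fun b => (y b : ZMod N) = s).card : ℂ) * ψ (r * s) := by
    intro a ha
    rw [(Finset.mem_filter.1 ha).2]
  rw [Finset.sum_congr rfl e3, Finset.sum_const, nsmul_eq_mul, Finset.mul_sum]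
  refine Finset.sum_congr rfl fun s _ => ?_
  push_cast
  ring

/-- Existence of an 8-term zero sum modulo `G` from bounds on all exponential sums. -/
theorem zero_sum_exists {Ψ : Type} [Fintype Ψ] [Nonempty Ψ] (G : ℕ) (hG : 0 < G) (x : Ψ → ℕ)
    (β : ℕ → ℝ) (hβ0 : ∀ n, 0 ≤ β n)
    (hbias : ∀ h G' : ℕ, G' ∣ G → 1 < G' → Nat.Coprime h G' →
      ‖∑ ψ, ee G' (h * x ψ)‖ ≤ β G' * (Fintype.card Ψ : ℝ))
    (hsum : ∑ G' ∈ (Nat.divisors G).erase 1, (G' : ℝ) * β G' ^ 8 < 1) :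
    ∃ f : Fin 8 → Ψ, G ∣ ∑ i, x (f i) := by
  classical
  by_contra hcon
  push Not at hcon
  -- the main identity
  have h1 : ∑ h ∈ range G, (∑ ψ, ee G (h * x ψ)) ^ 8 = 0 := by
    have e1 : ∀ h ∈ range G, (∑ ψ, ee G (h * x ψ)) ^ 8 =
        ∑ f : Fin 8 → Ψ, ee G (h * ∑ i, x (f i)) := by
      intro h _
      rw [Fintype.sum_pow]
      refine Finset.sum_congr rfl fun f _ => ?_
      have : ∀ s : Finset (Fin 8), ee G (h * ∑ i ∈ s, x (f i)) = ∏ i ∈ s, ee G (h * x (f i)) := by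
        intro s
        induction s using Finset.induction_on with
        | empty => simp [ee_zero]
        | insert a s ha ih => rw [Finset.sum_insert ha, Finset.prod_insert ha, mul_add, ee_add, ih]
      exact (this univ).symm
    rw [Finset.sum_congr rfl e1, Finset.sum_comm]
    refine Finset.sum_eq_zero fun f _ => ?_
    rw [ee_sum_range G hG, if_neg (hcon f)]
  have h0mem : 0 ∈ range G := Finset.mem_range.2 hG
  rw [← Finset.add_sum_erase _ _ h0mem] at h1
  have h2 : (∑ ψ : Ψ, ee G (0 * x ψ)) = (Fintype.card Ψ : ℂ) := by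
    simp [ee_zero]
  rw [h2] at h1
  have h3 : ((Fintype.card Ψ : ℝ)) ^ 8 ≤
      ∑ h ∈ (range G).erase 0, ‖∑ ψ, ee G (h * x ψ)‖ ^ 8 := by
    have e2 : ((Fintype.card Ψ : ℂ)) ^ 8 = -∑ h ∈ (range G).erase 0, (∑ ψ, ee G (h * x ψ)) ^ 8 :=
      eq_neg_of_add_eq_zero_left h1
    have e3 := congrArg norm e2
    rw [norm_neg, norm_pow, Complex.norm_natCast] at e3
    rw [e3]
    refine (norm_sum_le _ _).trans (le_of_eq ?_)
    refine Finset.sum_congr rfl fun h _ => ?_
    rw [norm_pow]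
  -- bound each term
  have h4 : ∀ h ∈ (range G).erase 0, ‖∑ ψ, ee G (h * x ψ)‖ ^ 8 ≤
      β (G / G.gcd h) ^ 8 * (Fintype.card Ψ : ℝ) ^ 8 := by
    intro h hh
    obtain ⟨hh0, hhG⟩ := Finset.mem_erase.1 hh
    have hhG := Finset.mem_range.1 hhG
    have hg : 0 < G.gcd h := Nat.gcd_pos_of_pos_left _ hG
    obtain ⟨G', hG'⟩ : G.gcd h ∣ G := Nat.gcd_dvd_left _ _
    obtain ⟨h', hh'⟩ : G.gcd h ∣ h := Nat.gcd_dvd_right _ _
    have hdiv : G / G.gcd h = G' := by
      conv_lhs => 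
        enter [1]
        rw [hG']
      exact Nat.mul_div_cancel_left _ hg
    have hcop : Nat.Coprime h' G' := by
      have h5 := Nat.coprime_div_gcd_div_gcd (m := G) (n := h) hg
      rw [hdiv] at h5
      have h6 : h / G.gcd h = h' := by
        conv_lhs =>
          enter [1]
          rw [hh']
        exact Nat.mul_div_cancel_left _ hg
      rw [h6] at h5
      exact h5.symm
    have hG'1 : 1 < G' := by
      by_contra h7
      have h8 : G' = 0 ∨ G' = 1 := by omega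
      rcases h8 with h8 | h8
      · rw [h8, mul_zero] at hG'
        omega
      · rw [h8, mul_one] at hG'
        have h9 : G ∣ h := by
          have := Nat.gcd_dvd_right G h
          rwa [← hG'] at this
        exact absurd (Nat.le_of_dvd (Nat.pos_of_ne_zero hh0) h9) (by omega)
    rw [hdiv, ← mul_pow]
    refine pow_le_pow_left₀ (norm_nonneg _) ?_ 8
    have e5 : ∀ ψ, ee G (h * x ψ) = ee G' (h' * x ψ) := by
      intro ψ
      conv_lhs =>
        enter [2]
        rw [hh']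
      exact ee_reduce G (G.gcd h) G' h' hg hG' (x ψ)
    rw [Finset.sum_congr rfl fun ψ _ => e5 ψ]
    exact hbias h' G' ⟨G.gcd h, by rw [mul_comm]; exact hG'⟩ hG'1 hcop
  -- regroup by `G'`
  have h5 : ∑ h ∈ (range G).erase 0, β (G / G.gcd h) ^ 8 ≤
      ∑ G' ∈ (Nat.divisors G).erase 1, (G' : ℝ) * β G' ^ 8 := by
    have hmaps : ∀ h ∈ (range G).erase 0, G / G.gcd h ∈ (Nat.divisors G).erase 1 := by
      intro h hh
      obtain ⟨hh0, hhG⟩ := Finset.mem_erase.1 hh
      have hhG := Finset.mem_range.1 hhG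
      refine Finset.mem_erase.2 ⟨?_, Nat.mem_divisors.2
        ⟨Nat.div_dvd_of_dvd (Nat.gcd_dvd_left _ _), hG.ne'⟩⟩
      intro h6
      have h7 : G.gcd h = G := by
        have := Nat.div_mul_cancel (Nat.gcd_dvd_left G h)
        rw [h6, one_mul] at this
        exact this
      have h9 : G ∣ h := by
        have := Nat.gcd_dvd_right G h
        rwa [h7] at this
      exact absurd (Nat.le_of_dvd (Nat.pos_of_ne_zero hh0) h9) (by omega)
    rw [← Finset.sum_fiberwise_of_maps_to hmaps]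
    refine Finset.sum_le_sum fun G' hG' => ?_
    obtain ⟨hG'1, hG'2⟩ := Finset.mem_erase.1 hG'
    have hG'd := Nat.dvd_of_mem_divisors hG'2
    have e6 : ∑ h ∈ ((range G).erase 0).filter (fun h => G / G.gcd h = G'),
        β (G / G.gcd h) ^ 8 =
        ((((range G).erase 0).filter (fun h => G / G.gcd h = G')).card : ℝ) * β G' ^ 8 := by
      rw [← nsmul_eq_mul, ← Finset.sum_const]
      refine Finset.sum_congr rfl fun h hh => ?_
      rw [(Finset.mem_filter.1 hh).2]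
    rw [e6]
    refine mul_le_mul_of_nonneg_right ?_ (pow_nonneg (hβ0 _) 8)
    have e7 : (((range G).erase 0).filter (fun h => G / G.gcd h = G')).card ≤ G' := by
      have hG'pos : 0 < G' := Nat.pos_of_dvd_of_pos hG'd hG
      have hd : G / G' ∣ G := Nat.div_dvd_of_dvd hG'd
      have e8 := Nat.totient_div_of_dvd hd
      rw [Nat.div_div_self hG'd hG.ne'] at e8
      calc (((range G).erase 0).filter (fun h => G / G.gcd h = G')).card
          ≤ ((range G).filter (fun k => G.gcd k = G / G')).card := by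
            apply Finset.card_le_card
            intro h hh
            rw [Finset.mem_filter] at hh ⊢
            refine ⟨(Finset.mem_erase.1 hh.1).2, ?_⟩
            rw [← hh.2, Nat.div_div_self (Nat.gcd_dvd_left _ _) hG.ne']
        _ = Nat.totient G' := e8.symm
        _ ≤ G' := Nat.totient_le _
    exact_mod_cast e7
  have hcard : 0 < (Fintype.card Ψ : ℝ) ^ 8 := by
    have : 0 < Fintype.card Ψ := Fintype.card_pos
    positivity
  have h6 : ((Fintype.card Ψ : ℝ)) ^ 8 ≤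
      (∑ G' ∈ (Nat.divisors G).erase 1, (G' : ℝ) * β G' ^ 8) * (Fintype.card Ψ : ℝ) ^ 8 := by
    calc ((Fintype.card Ψ : ℝ)) ^ 8 ≤ ∑ h ∈ (range G).erase 0, ‖∑ ψ, ee G (h * x ψ)‖ ^ 8 := h3
      _ ≤ ∑ h ∈ (range G).erase 0, β (G / G.gcd h) ^ 8 * (Fintype.card Ψ : ℝ) ^ 8 :=
          Finset.sum_le_sum h4
      _ = (∑ h ∈ (range G).erase 0, β (G / G.gcd h) ^ 8) * (Fintype.card Ψ : ℝ) ^ 8 := by
          rw [Finset.sum_mul]
      _ ≤ _ := mul_le_mul_of_nonneg_right h5 hcard.le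
  have h7 : (∑ G' ∈ (Nat.divisors G).erase 1, (G' : ℝ) * β G' ^ 8) * (Fintype.card Ψ : ℝ) ^ 8 <
      1 * (Fintype.card Ψ : ℝ) ^ 8 := mul_lt_mul_of_pos_right hsum hcard
  rw [one_mul] at h7
  exact absurd h6 (not_le.2 h7)

end Crest.Agent.S0025
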