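import Crest.Agent.S0025.Choice
import Crest.Agent.S0025.Fourier

set_option autoImplicit false

namespace Crest.Agent.S0025

open Finset

/-- consequence of `bilin` with extra unit variables -/
theorem lv_bias {A B C : Type} [Fintype A] [Fintype B] [Fintype C] (N : ℕ) (hN : 0 < N)
    (xA : A → ℕ) (xB : B → ℕ) (w : C → ℕ) (hw : ∀ c, Nat.Coprime (w c) N) (h : ℕ)
    (hh : Nat.Coprime h N) (K : ℝ) (hK : 0 ≤ K)
    (hA : (N : ℝ) * coll N xA * coll N xB ≤ K ^ 2) :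
    ‖∑ a, ∑ b, ∑ c, ee N (h * (xA a * xB b * w c))‖ ≤ (Fintype.card C : ℝ) * K := by
  have h1 : ∑ a, ∑ b, ∑ c, ee N (h * (xA a * xB b * w c))
      = ∑ c, ∑ a, ∑ b, ee N ((h * w c) * (xA a * xB b)) := by
    calc ∑ a, ∑ b, ∑ c, ee N (h * (xA a * xB b * w c))
        = ∑ a, ∑ c, ∑ b, ee N (h * (xA a * xB b * w c)) :=
          Finset.sum_congr rfl fun a _ => Finset.sum_comm
      _ = ∑ c, ∑ a, ∑ b, ee N (h * (xA a * xB b * w c)) := Finset.sum_comm
      _ = _ := by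
        refine Finset.sum_congr rfl fun c _ => Finset.sum_congr rfl fun a _ =>
          Finset.sum_congr rfl fun b _ => ?_
        congr 1
        ring
  rw [h1]
  calc ‖∑ c, ∑ a, ∑ b, ee N ((h * w c) * (xA a * xB b))‖
      ≤ ∑ c : C, ‖∑ a, ∑ b, ee N ((h * w c) * (xA a * xB b))‖ := norm_sum_le _ _
    _ ≤ ∑ c : C, K := by
        refine Finset.sum_le_sum fun c _ => ?_
        have h2 := bilin N hN xA xB (h * w c) (Nat.Coprime.mul_left hh (hw c))
        have h3 := h2.trans hA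
        exact (pow_le_pow_iff_left₀ (norm_nonneg _) hK two_ne_zero).1 h3
    _ = (Fintype.card C : ℝ) * K := by simp

abbrev LvR (k G : ℕ) : Type := {r : ℕ // r ∈ (Finset.Icc 1 k).filter (fun r => Nat.Coprime r G)}

abbrev LvF (k : ℕ) : Type := Fin 64 → Finset (Fin k)

def lvU {k : ℕ} (q : Fin 64 → Fin k → ℕ) (I : LvF k) : ℕ := ∏ a, sprod (q a) (I a)

def lvX {k G : ℕ} (q : Fin 64 → Fin k → ℕ) (ψ : LvR k G × LvR k G × LvF k × LvF k) : ℕ :=
  ψ.1.1 * ψ.2.1.1 * (lvU q ψ.2.2.1 * lvU q ψ.2.2.2)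

theorem lv_coprime_sprod {k N : ℕ} {q : Fin k → ℕ} (hq : ∀ i, Nat.Coprime (q i) N)
    (I : Finset (Fin k)) : Nat.Coprime (sprod q I) N :=
  Nat.Coprime.prod_left fun i _ => hq i

theorem lv_coprime_lvU {k N : ℕ} {q : Fin 64 → Fin k → ℕ} (hq : ∀ a i, Nat.Coprime (q a i) N)
    (I : LvF k) : Nat.Coprime (lvU q I) N :=
  Nat.Coprime.prod_left fun a _ => lv_coprime_sprod (hq a) _

theorem lv_count_mod (k N v : ℕ) (hN : 0 < N) :
    ((Finset.Icc 1 k).filter (fun r => v ≡ r [MOD N])).card ≤ k / N + 1 := by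
  rw [← Finset.card_range (k / N + 1)]
  refine Finset.card_le_card_of_injOn (fun x => x / N) ?_ ?_
  · intro x hx
    simp only [Finset.coe_filter, Finset.mem_Icc, Set.mem_ofPred_eq] at hx
    simp only [Finset.coe_range, Set.mem_Iio]
    exact Nat.lt_succ_of_le (Nat.div_le_div_right hx.1.2)
  · intro x hx y hy hxy
    simp only [Finset.coe_filter, Finset.mem_Icc, Set.mem_ofPred_eq] at hx hy
    have h1 : x % N = y % N := hx.2.symm.trans hy.2
    have h2 : x / N = y / N := hxy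
    rw [← Nat.div_add_mod x N, ← Nat.div_add_mod y N, h1, h2]

theorem lv_coll_R (k G N : ℕ) (hN : 0 < N) :
    coll N (fun r : LvR k G => (r : ℕ)) ≤ Fintype.card (LvR k G) * (k / N + 1) := by
  classical
  unfold coll
  rw [Finset.card_filter, Fintype.sum_prod_type]
  calc ∑ r : LvR k G, ∑ r' : LvR k G, (if (r : ℕ) ≡ (r' : ℕ) [MOD N] then 1 else 0)
      ≤ ∑ r : LvR k G, (k / N + 1) := by
        refine Finset.sum_le_sum fun r _ => ?_
        rw [← Finset.card_filter]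
        refine le_trans ?_ (lv_count_mod k N r hN)
        refine Finset.card_le_card_of_injOn (fun r' : LvR k G => (r' : ℕ)) ?_ ?_
        · intro x hx
          have hx2 := x.2
          simp only [Finset.coe_filter, Finset.mem_univ, true_and, Set.mem_ofPred_eq] at hx
          simp only [Finset.mem_filter] at hx2
          simp only [Finset.coe_filter, Set.mem_ofPred_eq]
          exact ⟨hx2.1, hx⟩
        · intro x _ y _ hxy
          exact Subtype.ext hxy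
    _ = Fintype.card (LvR k G) * (k / N + 1) := by simp

theorem lv_card_R (k G : ℕ)
    (hr : 10000 * ((Finset.Icc 1 k).filter fun r => ¬ Nat.Coprime r G).card ≤ k) :
    9999 * k ≤ 10000 * Fintype.card (LvR k G) := by
  have h1 := Finset.card_filter_add_card_filter_not (s := Finset.Icc 1 k)
    (p := fun r => Nat.Coprime r G)
  rw [Nat.card_Icc] at h1
  have h2 : Fintype.card (LvR k G) = ((Finset.Icc 1 k).filter fun r => Nat.Coprime r G).card :=
    Fintype.card_coe _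
  rw [h2]
  omega

/-- bias for small moduli -/
theorem lv_small {k G : ℕ} (q : Fin 64 → Fin k → ℕ) (N : ℕ) (hN : 0 < N) (hNk : N ≤ k)
    (hNG : N ∣ G) (hq : ∀ a i, Nat.Coprime (q a i) N) (h : ℕ) (hh : Nat.Coprime h N)
    (hr : 10000 * ((Finset.Icc 1 k).filter fun r => ¬ Nat.Coprime r G).card ≤ k) :
    ‖∑ ψ : LvR k G × LvR k G × LvF k × LvF k, ee N (h * lvX q ψ)‖
      ≤ (3 * (N : ℝ) ^ (-(3 / 8) : ℝ)) *
        (Fintype.card (LvR k G × LvR k G × LvF k × LvF k) : ℝ) := by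
  have hN1 : (1 : ℝ) ≤ N := by exact_mod_cast hN
  have hN0 : (0 : ℝ) < N := by linarith
  set R : ℝ := (Fintype.card (LvR k G) : ℝ) with hR
  have hRk : (9999 / 10000 : ℝ) * k ≤ R := by
    have := lv_card_R k G hr
    have h2 : (9999 : ℝ) * k ≤ 10000 * R := by rw [hR]; exact_mod_cast this
    linarith
  have hR0 : 0 ≤ R := by positivity
  have hcoll : (coll N (fun r : LvR k G => (r : ℕ)) : ℝ) ≤ R * (2 * k / N) := by
    have h1 := lv_coll_R k G N hN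
    have h2 : (coll N (fun r : LvR k G => (r : ℕ)) : ℝ) ≤ R * ((k / N : ℕ) + 1 : ℝ) := by
      rw [hR]; exact_mod_cast h1
    refine h2.trans (mul_le_mul_of_nonneg_left ?_ hR0)
    have h3 : ((k / N : ℕ) : ℝ) ≤ (k : ℝ) / N := Nat.cast_div_le
    have h4 : (1 : ℝ) ≤ (k : ℝ) / N := by
      rw [le_div_iff₀ hN0]
      have : (N : ℝ) ≤ k := by exact_mod_cast hNk
      linarith
    have h5 : (2 * k / N : ℝ) = k / N + k / N := by ring
    rw [h5]; linarith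
  have hK : (0 : ℝ) ≤ 3 * (N : ℝ) ^ (-(3 / 8) : ℝ) * R ^ 2 := by positivity
  have hA : (N : ℝ) * coll N (fun r : LvR k G => (r : ℕ)) * coll N (fun r : LvR k G => (r : ℕ))
      ≤ (3 * (N : ℝ) ^ (-(3 / 8) : ℝ) * R ^ 2) ^ 2 := by
    have h1 : (N : ℝ) * coll N (fun r : LvR k G => (r : ℕ)) *
        coll N (fun r : LvR k G => (r : ℕ)) ≤ N * (R * (2 * k / N)) * (R * (2 * k / N)) := by
      have h0 : (0 : ℝ) ≤ coll N (fun r : LvR k G => (r : ℕ)) := by positivity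
      have := mul_le_mul hcoll hcoll h0 (h0.trans hcoll)
      calc (N : ℝ) * coll N (fun r : LvR k G => (r : ℕ)) * coll N (fun r : LvR k G => (r : ℕ))
          = N * (coll N (fun r : LvR k G => (r : ℕ)) * coll N (fun r : LvR k G => (r : ℕ))) := by
            ring
        _ ≤ N * (R * (2 * k / N) * (R * (2 * k / N))) := mul_le_mul_of_nonneg_left this hN0.le
        _ = _ := by ring
    refine h1.trans ?_
    have h2 : (N : ℝ) * (R * (2 * k / N)) * (R * (2 * k / N)) = 4 * R ^ 2 * (k : ℝ) ^ 2 * (N : ℝ)⁻¹ := by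
      field_simp
      ring
    have h3 : (3 * (N : ℝ) ^ (-(3 / 8) : ℝ) * R ^ 2) ^ 2
        = 9 * R ^ 2 * R ^ 2 * (N : ℝ) ^ (-(3 / 4) : ℝ) := by
      have : ((N : ℝ) ^ (-(3 / 8) : ℝ)) ^ 2 = (N : ℝ) ^ (-(3 / 4) : ℝ) := by
        rw [← Real.rpow_natCast, ← Real.rpow_mul hN0.le]
        norm_num
      calc (3 * (N : ℝ) ^ (-(3 / 8) : ℝ) * R ^ 2) ^ 2
          = 9 * R ^ 2 * R ^ 2 * ((N : ℝ) ^ (-(3 / 8) : ℝ)) ^ 2 := by ring
        _ = _ := by rw [this]
    rw [h2, h3]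
    have h4 : (N : ℝ)⁻¹ ≤ (N : ℝ) ^ (-(3 / 4) : ℝ) := by
      rw [← Real.rpow_neg_one]
      exact Real.rpow_le_rpow_of_exponent_le hN1 (by norm_num)
    have h5 : 4 * (k : ℝ) ^ 2 ≤ 9 * R ^ 2 := by
      have hk0 : (0 : ℝ) ≤ k := by positivity
      nlinarith
    calc 4 * R ^ 2 * (k : ℝ) ^ 2 * (N : ℝ)⁻¹ = R ^ 2 * (4 * (k : ℝ) ^ 2) * (N : ℝ)⁻¹ := by ring
      _ ≤ R ^ 2 * (9 * R ^ 2) * (N : ℝ) ^ (-(3 / 4) : ℝ) := by
          refine mul_le_mul (mul_le_mul_of_nonneg_left h5 (by positivity)) h4 (by positivity)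
            (by positivity)
      _ = _ := by ring
  have key := lv_bias (A := LvR k G) (B := LvR k G) (C := LvF k × LvF k) N hN
    (fun r => (r : ℕ)) (fun r => (r : ℕ)) (fun c => lvU q c.1 * lvU q c.2)
    (fun c => Nat.Coprime.mul_left (lv_coprime_lvU hq _) (lv_coprime_lvU hq _)) h hh _ hK hA
  have e1 : ∑ ψ : LvR k G × LvR k G × LvF k × LvF k, ee N (h * lvX q ψ)
      = ∑ a : LvR k G, ∑ b : LvR k G, ∑ c : LvF k × LvF k,
        ee N (h * ((a : ℕ) * (b : ℕ) * (lvU q c.1 * lvU q c.2))) := by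
    rw [Fintype.sum_prod_type]
    refine Finset.sum_congr rfl fun a _ => ?_
    rw [Fintype.sum_prod_type]
    rfl
  rw [e1]
  refine key.trans (le_of_eq ?_)
  simp only [Fintype.card_prod, Nat.cast_mul, ← hR]
  ring

/-- bias for large moduli -/
theorem lv_large {k G : ℕ} (q : Fin 64 → Fin k → ℕ) (N : ℕ) (hN : 0 < N)
    (hNG : N ∣ G) (hq : ∀ a i, Nat.Coprime (q a i) N) (h : ℕ) (hh : Nat.Coprime h N)
    (a : Fin 64) (ha : (coll N (sprod (q a))) ^ 8 * N ^ 7 ≤ (4 ^ k) ^ 8) :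
    ‖∑ ψ : LvR k G × LvR k G × LvF k × LvF k, ee N (h * lvX q ψ)‖
      ≤ (3 * (N : ℝ) ^ (-(3 / 8) : ℝ)) *
        (Fintype.card (LvR k G × LvR k G × LvF k × LvF k) : ℝ) := by
  classical
  have hN1 : (1 : ℝ) ≤ N := by exact_mod_cast hN
  have hN0 : (0 : ℝ) < N := by linarith
  -- the equivalence
  let F' : Type := {j : Fin 64 // j ≠ a} → Finset (Fin k)
  let sp := Equiv.funSplitAt a (Finset (Fin k))
  let e : (Finset (Fin k) × Finset (Fin k) × ((LvR k G × LvR k G) × (F' × F'))) ≃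
      (LvR k G × LvR k G × LvF k × LvF k) :=
    { toFun := fun p => (p.2.2.1.1, p.2.2.1.2, sp.symm (p.1, p.2.2.2.1), sp.symm (p.2.1, p.2.2.2.2))
      invFun := fun ψ => ((sp ψ.2.2.1).1, (sp ψ.2.2.2).1,
        ((ψ.1, ψ.2.1), ((sp ψ.2.2.1).2, (sp ψ.2.2.2).2)))
      left_inv := fun p => by simp
      right_inv := fun ψ => by simp }
  let w' : F' → ℕ := fun I => ∏ j : {j : Fin 64 // j ≠ a}, sprod (q j) (I j)
  have hU : ∀ (s : Finset (Fin k)) (I : F'), lvU q (sp.symm (s, I)) = sprod (q a) s * w' I := by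
    intro s I
    unfold lvU
    rw [Fintype.prod_eq_mul_prod_subtype_ne _ a]
    congr 1
    · simp [sp]
    · refine Finset.prod_congr rfl fun j _ => ?_
      have : (sp.symm (s, I)) j.1 = I j := by
        simp [sp, j.2]
      rw [this]
  have hw' : ∀ I, Nat.Coprime (w' I) N := fun I =>
    Nat.Coprime.prod_left fun j _ => lv_coprime_sprod (hq j) _
  have hRcop : ∀ r : LvR k G, Nat.Coprime (r : ℕ) N := fun r => by
    have := r.2
    simp only [Finset.mem_filter] at this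
    exact Nat.Coprime.coprime_dvd_right hNG this.2
  set c₀ : ℝ := (coll N (sprod (q a)) : ℝ) with hc₀
  have hc0 : 0 ≤ c₀ := by positivity
  have hcoll : c₀ ≤ (4 : ℝ) ^ k * (N : ℝ) ^ (-(7 / 8) : ℝ) := by
    have h1 : c₀ ^ 8 * (N : ℝ) ^ 7 ≤ ((4 : ℝ) ^ k) ^ 8 := by rw [hc₀]; exact_mod_cast ha
    have h2 : ((4 : ℝ) ^ k * (N : ℝ) ^ (-(7 / 8) : ℝ)) ^ 8 = ((4 : ℝ) ^ k) ^ 8 * ((N : ℝ) ^ 7)⁻¹ := by
      rw [mul_pow]
      congr 1
      rw [← Real.rpow_natCast, ← Real.rpow_mul hN0.le, ← Real.rpow_natCast, ← Real.rpow_neg hN0.le]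
      norm_num
    have h3 : c₀ ^ 8 ≤ ((4 : ℝ) ^ k * (N : ℝ) ^ (-(7 / 8) : ℝ)) ^ 8 := by
      rw [h2, ← div_eq_mul_inv, le_div_iff₀ (by positivity)]
      exact h1
    exact (pow_le_pow_iff_left₀ hc0 (by positivity) (by norm_num)).1 h3
  have hK : (0 : ℝ) ≤ 3 * (N : ℝ) ^ (-(3 / 8) : ℝ) * (4 : ℝ) ^ k := by positivity
  have hA : (N : ℝ) * coll N (sprod (q a)) * coll N (sprod (q a))
      ≤ (3 * (N : ℝ) ^ (-(3 / 8) : ℝ) * (4 : ℝ) ^ k) ^ 2 := by
    have h1 : c₀ * c₀ ≤ ((4 : ℝ) ^ k * (N : ℝ) ^ (-(7 / 8) : ℝ)) *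
        ((4 : ℝ) ^ k * (N : ℝ) ^ (-(7 / 8) : ℝ)) := mul_le_mul hcoll hcoll hc0 (hc0.trans hcoll)
    have h2 : (N : ℝ) * (((4 : ℝ) ^ k * (N : ℝ) ^ (-(7 / 8) : ℝ)) *
        ((4 : ℝ) ^ k * (N : ℝ) ^ (-(7 / 8) : ℝ))) = ((N : ℝ) ^ (-(3 / 8) : ℝ) * (4 : ℝ) ^ k) ^ 2 := by
      have e1 : (N : ℝ) * ((N : ℝ) ^ (-(7 / 8) : ℝ) * (N : ℝ) ^ (-(7 / 8) : ℝ))
          = ((N : ℝ) ^ (-(3 / 8) : ℝ)) ^ 2 := by
        nth_rewrite 1 [← Real.rpow_one (N : ℝ)]
        rw [← Real.rpow_add hN0, ← Real.rpow_add hN0, ← Real.rpow_natCast, ← Real.rpow_mul hN0.le]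
        norm_num
      calc (N : ℝ) * (((4 : ℝ) ^ k * (N : ℝ) ^ (-(7 / 8) : ℝ)) *
            ((4 : ℝ) ^ k * (N : ℝ) ^ (-(7 / 8) : ℝ)))
          = (N : ℝ) * ((N : ℝ) ^ (-(7 / 8) : ℝ) * (N : ℝ) ^ (-(7 / 8) : ℝ)) *
            ((4 : ℝ) ^ k * (4 : ℝ) ^ k) := by ring
        _ = _ := by rw [e1]; ring
    calc (N : ℝ) * c₀ * c₀ = N * (c₀ * c₀) := by ring
      _ ≤ N * (((4 : ℝ) ^ k * (N : ℝ) ^ (-(7 / 8) : ℝ)) *
        ((4 : ℝ) ^ k * (N : ℝ) ^ (-(7 / 8) : ℝ))) := mul_le_mul_of_nonneg_left h1 hN0.le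
      _ = ((N : ℝ) ^ (-(3 / 8) : ℝ) * (4 : ℝ) ^ k) ^ 2 := h2
      _ ≤ (3 * (N : ℝ) ^ (-(3 / 8) : ℝ) * (4 : ℝ) ^ k) ^ 2 := by
          refine pow_le_pow_left₀ (by positivity) ?_ 2
          have : (0 : ℝ) ≤ (N : ℝ) ^ (-(3 / 8) : ℝ) * (4 : ℝ) ^ k := by positivity
          nlinarith
  have key := lv_bias (A := Finset (Fin k)) (B := Finset (Fin k))
    (C := (LvR k G × LvR k G) × (F' × F')) N hN
    (sprod (q a)) (sprod (q a)) (fun c => (c.1.1 : ℕ) * (c.1.2 : ℕ) * (w' c.2.1 * w' c.2.2))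
    (fun c => Nat.Coprime.mul_left (Nat.Coprime.mul_left (hRcop _) (hRcop _))
      (Nat.Coprime.mul_left (hw' _) (hw' _))) h hh _ hK hA
  have e1 : ∑ ψ : LvR k G × LvR k G × LvF k × LvF k, ee N (h * lvX q ψ)
      = ∑ s : Finset (Fin k), ∑ t : Finset (Fin k), ∑ c : (LvR k G × LvR k G) × (F' × F'),
        ee N (h * (sprod (q a) s * sprod (q a) t *
          ((c.1.1 : ℕ) * (c.1.2 : ℕ) * (w' c.2.1 * w' c.2.2)))) := by
    rw [← e.sum_comp, Fintype.sum_prod_type]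
    refine Finset.sum_congr rfl fun s _ => ?_
    rw [Fintype.sum_prod_type]
    refine Finset.sum_congr rfl fun t _ => ?_
    refine Finset.sum_congr rfl fun c _ => ?_
    have h5 : lvX q (e (s, t, c)) = (c.1.1 : ℕ) * (c.1.2 : ℕ) *
        (lvU q (sp.symm (s, c.2.1)) * lvU q (sp.symm (t, c.2.2))) := rfl
    have h6 : h * lvX q (e (s, t, c)) = h * (sprod (q a) s * sprod (q a) t *
          ((c.1.1 : ℕ) * (c.1.2 : ℕ) * (w' c.2.1 * w' c.2.2))) := by
      rw [h5, hU, hU]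
      ring
    exact congrArg (ee N) h6
  rw [e1]
  refine key.trans (le_of_eq ?_)
  rw [← Fintype.card_congr e]
  simp only [Fintype.card_prod, Nat.cast_mul, Fintype.card_finset, Fintype.card_fin, Nat.cast_pow]
  have h4 : (4 : ℝ) ^ k = ((2 : ℕ) : ℝ) ^ k * ((2 : ℕ) : ℝ) ^ k := by
    rw [← mul_pow]; norm_num
  rw [h4]
  ring

/-- Lemma V. -/
theorem lemmaV (k m M Λ : ℕ) (Q : Finset ℕ) (hQ : ∀ p ∈ Q, p.Prime ∧ p ≤ M)
    (hkm : 2 * m ≤ k) (hk : 3 ^ 70 ≤ k) (hM : k ^ 64 ≤ M) (hΛ : M ≤ Λ * Q.card) (hΛk : Λ ^ 16 ≤ k) :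
    ∃ R : ℕ, 0 < R ∧ R ≤ M ^ (64 * k) ∧ (∀ p : ℕ, p.Prime → p ∣ R → p ∈ Q) ∧
      ∀ G : ℕ, 1 ≤ G → G ≤ 2 ^ m → Nat.Coprime G R → (∀ p : ℕ, p.Prime → p ∣ G → 10000 ≤ p) →
        10000 * ((Finset.Icc 1 k).filter fun r => ¬ Nat.Coprime r G).card ≤ k →
        Rep ((k.factorial) ^ 2 * R ^ 2) 8 G := by
  classical
  obtain ⟨q, hqQ, hq⟩ := exists_choice k m M Λ Q hQ hkm hk hM hΛ hΛk
  refine ⟨∏ a, ∏ i, q a i, ?_, ?_, ?_, ?_⟩
  · exact Finset.prod_pos fun a _ => Finset.prod_pos fun i _ => (hQ _ (hqQ a i)).1.pos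
  · calc ∏ a, ∏ i, q a i ≤ ∏ _a : Fin 64, ∏ _i : Fin k, M :=
          Finset.prod_le_prod' fun a _ => Finset.prod_le_prod' fun i _ => (hQ _ (hqQ a i)).2
      _ = M ^ (64 * k) := by
          simp only [Finset.prod_const, Finset.card_univ, Fintype.card_fin]
          rw [← pow_mul, mul_comm]
  · intro p hp hd
    obtain ⟨a, _, ha⟩ := (Prime.dvd_finsetProd_iff hp.prime _).1 hd
    obtain ⟨i, _, hi⟩ := (Prime.dvd_finsetProd_iff hp.prime _).1 ha
    rw [(Nat.prime_dvd_prime_iff_eq hp (hQ _ (hqQ a i)).1).1 hi]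
    exact hqQ a i
  · intro G hG1 hG2 hcop hp10 hr
    have hkpos : 0 < k := lt_of_lt_of_le (by norm_num) hk
    have hcopG : ∀ a i, Nat.Coprime (q a i) G := by
      intro a i
      refine Nat.Coprime.symm (Nat.Coprime.coprime_dvd_right ?_ hcop)
      exact (Finset.dvd_prod_of_mem (fun i => q a i) (Finset.mem_univ i)).trans
        (Finset.dvd_prod_of_mem (fun a => ∏ i, q a i) (Finset.mem_univ a))
    have : Nonempty (LvR k G) := ⟨⟨1, by simp; omega⟩⟩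
    have hmain := zero_sum_exists (Ψ := LvR k G × LvR k G × LvF k × LvF k) G hG1 (lvX q)
      (fun N => 3 * (N : ℝ) ^ (-(3 / 8) : ℝ)) (fun N => by positivity) ?_ ?_
    · obtain ⟨f, hf⟩ := hmain
      refine ⟨List.ofFn fun i => lvX q (f i), ?_, ?_, ?_, ?_⟩
      · intro h0
        have := congrArg List.length h0
        simp at this
      · simp
      · intro g hg
        rw [List.mem_ofFn] at hg
        obtain ⟨i, rfl⟩ := hg
        have hU : ∀ I : LvF k, lvU q I ∣ ∏ a, ∏ i, q a i := fun I =>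
          Finset.prod_dvd_prod_of_dvd _ _ fun a _ =>
            Finset.prod_dvd_prod_of_subset _ _ _ (Finset.subset_univ _)
        have hRd : ∀ r : LvR k G, (r : ℕ) ∣ k.factorial := fun r => by
          have := r.2
          simp only [Finset.mem_filter, Finset.mem_Icc] at this
          exact Nat.dvd_factorial (by omega) this.1.2
        unfold lvX
        rw [sq, sq]
        exact mul_dvd_mul (mul_dvd_mul (hRd _) (hRd _)) (mul_dvd_mul (hU _) (hU _))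
      · rw [List.sum_ofFn]
        exact hf
    · intro h N hNG hN1 hh
      have hqN : ∀ a i, Nat.Coprime (q a i) N := fun a i =>
        Nat.Coprime.coprime_dvd_right hNG (hcopG a i)
      by_cases hNk : N ≤ k
      · exact lv_small q N (by omega) hNk hNG hqN h hh hr
      · have hNle : N ≤ 2 ^ m := (Nat.le_of_dvd hG1 hNG).trans hG2
        obtain ⟨a, ha⟩ := hq N (by omega) hNle hqN
        exact lv_large q N (by omega) hNG hqN h hh a ha
    · -- the sum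
      have hsub : (Nat.divisors G).erase 1 ⊆ Finset.Ioc 9999 (max 9999 G) := by
        intro N hN
        rw [Finset.mem_erase, Nat.mem_divisors] at hN
        obtain ⟨hN1, hNG, hG0⟩ := hN
        have hNpos : 0 < N := Nat.pos_of_dvd_of_pos hNG (by omega)
        have hmf := hp10 N.minFac (Nat.minFac_prime hN1) ((Nat.minFac_dvd N).trans hNG)
        have hle := Nat.minFac_le hNpos
        rw [Finset.mem_Ioc]
        refine ⟨by omega, le_max_of_le_right (Nat.le_of_dvd (by omega) hNG)⟩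
      have hterm : ∀ N : ℕ, 0 < N → (N : ℝ) * (3 * (N : ℝ) ^ (-(3 / 8) : ℝ)) ^ 8
          = 6561 * ((N : ℝ) ^ 2)⁻¹ := by
        intro N hN
        have hN0 : (0 : ℝ) < N := by exact_mod_cast hN
        rw [mul_pow, ← Real.rpow_natCast ((N : ℝ) ^ (-(3 / 8) : ℝ)), ← Real.rpow_mul hN0.le]
        have : (-(3 / 8) * ((8 : ℕ) : ℝ) : ℝ) = -((3 : ℕ) : ℝ) := by norm_num
        rw [this, Real.rpow_neg hN0.le, Real.rpow_natCast]
        field_simp
        norm_num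
      calc ∑ N ∈ (Nat.divisors G).erase 1, (N : ℝ) * (3 * (N : ℝ) ^ (-(3 / 8) : ℝ)) ^ 8
          ≤ ∑ N ∈ Finset.Ioc 9999 (max 9999 G), (N : ℝ) * (3 * (N : ℝ) ^ (-(3 / 8) : ℝ)) ^ 8 :=
            Finset.sum_le_sum_of_subset_of_nonneg hsub fun i _ _ => by positivity
        _ = ∑ N ∈ Finset.Ioc 9999 (max 9999 G), 6561 * ((N : ℝ) ^ 2)⁻¹ := by
            refine Finset.sum_congr rfl fun N hN => hterm N ?_
            rw [Finset.mem_Ioc] at hN
            omega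
        _ = 6561 * ∑ N ∈ Finset.Ioc 9999 (max 9999 G), ((N : ℝ) ^ 2)⁻¹ := by
            rw [Finset.mul_sum]
        _ ≤ 6561 * (((9999 : ℕ) : ℝ)⁻¹ - ((max 9999 G : ℕ) : ℝ)⁻¹) := by
            refine mul_le_mul_of_nonneg_left ?_ (by norm_num)
            exact sum_Ioc_inv_sq_le_sub (by norm_num) (le_max_left _ _)
        _ ≤ 6561 * ((9999 : ℕ) : ℝ)⁻¹ := by
            refine mul_le_mul_of_nonneg_left ?_ (by norm_num)
            have : (0 : ℝ) ≤ ((max 9999 G : ℕ) : ℝ)⁻¹ := by positivity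
            linarith
        _ < 1 := by norm_num

end Crest.Agent.S0025
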